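import Mathlib

/-!
Dimension reduction for finite subsets of an L_p space.
-/

namespace Vale.Agent.P249

open MeasureTheory

/-- Every `n`-point subset of every real `L_p` space (over any measure space in `Type`) admits an
arbitrary map into `ℝ^d` with the `p`-norm of distortion at most `D`. -/
def AdmitsDim (p D : ℝ) (n d : ℕ) : Prop :=
  ∀ (Ω : Type) (_ : MeasurableSpace Ω) (μ : Measure Ω)
    (X : Finset (Lp ℝ (ENNReal.ofReal p) μ)), X.card = n →
    ∃ f : Lp ℝ (ENNReal.ofReal p) μ → PiLp (ENNReal.ofReal p) (fun _ : Fin d => ℝ),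
      ∃ s : ℝ, 0 < s ∧ ∀ x ∈ X, ∀ y ∈ X,
        s * ‖x - y‖ ≤ ‖f x - f y‖ ∧ ‖f x - f y‖ ≤ D * s * ‖x - y‖

end Vale.Agent.P249
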