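import Mathlib

/-!
Finitely many functions in L_p are approximated by a finite weighted configuration.
-/

namespace Vale.Agent.P249

open MeasureTheory
open scoped ENNReal NNReal

lemma eLpNorm_simple {Ω : Type*} [MeasurableSpace Ω] {μ : Measure Ω} {p : ℝ} (hp : 0 < p)
    {β : Type*} (G : SimpleFunc Ω β) (φ : β → ℝ) :
    eLpNorm (fun ω => φ (G ω)) (ENNReal.ofReal p) μ ^ p =
      ∑ v ∈ G.range, ‖φ v‖ₑ ^ p * μ (G ⁻¹' {v}) := by
  rw [← SimpleFunc.map_lintegral, ← SimpleFunc.lintegral_eq_lintegral,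
    eLpNorm_eq_lintegral_rpow_enorm_toReal (by simpa [ENNReal.ofReal_eq_zero] using hp)
      ENNReal.ofReal_ne_top,
    ENNReal.toReal_ofReal hp.le, one_div, ENNReal.rpow_inv_rpow hp.ne']
  rfl

theorem discretize {Ω : Type} [MeasurableSpace Ω] {μ : Measure Ω} {p : ℝ} (hp : 1 ≤ p)
    {V : Type*} [Fintype V] (x : V → Lp ℝ (ENNReal.ofReal p) μ) {δ : ℝ} (hδ : 0 < δ) :
    ∃ (S : Finset (V → ℝ)) (w : {v // v ∈ S} → ℝ), (∀ v, 0 ≤ w v) ∧ ∀ a b,
      |(∑ v : {v // v ∈ S}, w v * |v.1 a - v.1 b| ^ p) ^ p⁻¹ - ‖x a - x b‖| ≤ 2 * δ := by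
  classical
  have hp0 : 0 < p := lt_of_lt_of_le one_pos hp
  have : Fact (1 ≤ ENNReal.ofReal p) :=
    ⟨by rw [← ENNReal.ofReal_one]; exact ENNReal.ofReal_le_ofReal hp⟩
  have hex := fun a => (Lp.memLp (x a)).exists_simpleFunc_eLpNorm_sub_lt ENNReal.ofReal_ne_top
    (show ENNReal.ofReal δ ≠ 0 by simpa [ENNReal.ofReal_eq_zero] using hδ)
  choose g hg hgmem using hex
  let G : SimpleFunc Ω (V → ℝ) :=
    { toFun := fun ω a => g a ω
      measurableSet_fiber' := fun v => by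
        have : (fun ω a => g a ω) ⁻¹' {v} = ⋂ a, g a ⁻¹' {v a} := by
          ext ω; simp [funext_iff]
        rw [this]
        exact MeasurableSet.iInter fun a => (g a).measurableSet_fiber _
      finite_range' := by
        refine (Set.Finite.pi fun a => (g a).finite_range).subset ?_
        rintro _ ⟨ω, rfl⟩ a -
        exact ⟨ω, rfl⟩ }
  refine ⟨G.range, fun v => (μ (G ⁻¹' {v.1})).toReal, fun v => ENNReal.toReal_nonneg,
    fun a b => ?_⟩
  have hfin : MemLp (fun ω => g a ω - g b ω) (ENNReal.ofReal p) μ := (hgmem a).sub (hgmem b)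
  have key : (∑ v : {v // v ∈ G.range}, (μ (G ⁻¹' {v.1})).toReal * |v.1 a - v.1 b| ^ p) ^ p⁻¹ =
      (eLpNorm (fun ω => g a ω - g b ω) (ENNReal.ofReal p) μ).toReal := by
    have e := eLpNorm_simple (μ := μ) hp0 G (fun v => v a - v b)
    change eLpNorm (fun ω => g a ω - g b ω) (ENNReal.ofReal p) μ ^ p = _ at e
    have hne : ∀ v ∈ G.range, ‖v a - v b‖ₑ ^ p * μ (G ⁻¹' {v}) ≠ ∞ := by
      intro v hv h
      have htop : eLpNorm (fun ω => g a ω - g b ω) (ENNReal.ofReal p) μ ^ p = ∞ := by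
        rw [e]; exact ENNReal.sum_eq_top.2 ⟨v, hv, h⟩
      exact ENNReal.rpow_ne_top_of_nonneg hp0.le hfin.eLpNorm_lt_top.ne htop
    have e2 := congrArg ENNReal.toReal e
    rw [← ENNReal.toReal_rpow, ENNReal.toReal_sum hne] at e2
    rw [← Real.rpow_rpow_inv (ENNReal.toReal_nonneg
      (a := eLpNorm (fun ω => g a ω - g b ω) (ENNReal.ofReal p) μ)) hp0.ne', e2,
      ← Finset.sum_coe_sort G.range]
    congr 1
    refine Finset.sum_congr rfl fun v _ => ?_
    rw [ENNReal.toReal_mul, ← ENNReal.toReal_rpow, toReal_enorm, Real.norm_eq_abs, mul_comm]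
  rw [key]
  set y := fun c => (hgmem c).toLp _ with hy
  have hy2 : ‖y a - y b‖ = (eLpNorm (fun ω => g a ω - g b ω) (ENNReal.ofReal p) μ).toReal := by
    simp only [hy]
    rw [← MemLp.toLp_sub, Lp.norm_toLp]
    rfl
  have hxy : ∀ c, ‖x c - y c‖ ≤ δ := by
    intro c
    have : x c = (Lp.memLp (x c)).toLp _ := (Lp.toLp_coeFn _ _).symm
    rw [this]
    simp only [hy]
    rw [← MemLp.toLp_sub, Lp.norm_toLp]
    refine ENNReal.toReal_le_of_le_ofReal hδ.le ?_
    exact (hg c).le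
  rw [← hy2]
  refine (abs_norm_sub_norm_le _ _).trans ?_
  have e1 : y a - y b - (x a - x b) = (x b - y b) - (x a - y a) := by abel
  refine le_trans (le_of_eq (congrArg norm e1)) ?_
  refine (norm_sub_le _ _).trans ?_
  linarith [hxy a, hxy b]

end Vale.Agent.P249
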