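import Vale.Agent.P249.Smoothing

/-!
The integer grid with the Euclidean distance needs many coordinates in the `p`-norm.
-/

namespace Vale.Agent.P249

open Finset

variable {m : ℕ}

/-- The integer cube `[lo, hi)`. -/
noncomputable def box (m : ℕ) (lo hi : ℤ) : Finset (Fin m → ℤ) :=
  Fintype.piFinset fun _ => Finset.Ico lo hi

lemma mem_box {lo hi : ℤ} {x : Fin m → ℤ} : x ∈ box m lo hi ↔ ∀ i, lo ≤ x i ∧ x i < hi := by
  simp [box, Fintype.mem_piFinset]

lemma card_box (lo hi : ℤ) : (box m lo hi).card = (hi - lo).toNat ^ m := by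
  simp [box]

lemma realPt_injective : Function.Injective (realPt (m := m)) := by
  intro a b h
  ext i
  have := congrArg (fun x : EuclideanSpace ℝ (Fin m) => x i) h
  simpa [realPt_apply] using this

lemma norm_realPt_sign (b : Fin m → Bool) : ‖realPt (signVec b)‖ = Real.sqrt m := by
  rw [EuclideanSpace.norm_eq]
  congr 1
  simp only [realPt_apply, signVec, Real.norm_eq_abs, sq_abs]
  rw [Finset.sum_congr rfl (g := fun _ => (1 : ℝ)) fun i _ => by split <;> simp]
  simp

lemma signVec_abs (b : Fin m → Bool) (i : Fin m) : signVec b i = 1 ∨ signVec b i = -1 := by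
  unfold signVec; split <;> simp

lemma translate_mem {L B : ℕ} (b : Fin m → Bool) {t : ℕ} (ht : t ≤ L) {a : Fin m → ℤ}
    (ha : a ∈ box m 0 B) : a + t • signVec b ∈ box m (-(L : ℤ)) ((B : ℤ) + L) := by
  rw [mem_box] at ha ⊢
  intro i
  have := ha i
  have ht' : (t : ℤ) ≤ L := by exact_mod_cast ht
  simp only [Pi.add_apply, nsmul_eq_mul]
  simp only [Pi.mul_apply, Pi.natCast_apply]
  rcases signVec_abs b i with h | h <;> rw [h] <;> constructor <;> omega

lemma exists_extension {D : ℝ} (hD : 0 ≤ D) (A : Finset (Fin m → ℤ)) (φ : (Fin m → ℤ) → ℝ)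
    (h : ∀ a ∈ A, ∀ b ∈ A, |φ a - φ b| ≤ D * ‖realPt a - realPt b‖) :
    ∃ F : (Fin m → ℤ) → ℝ, (∀ a b, |F a - F b| ≤ D * ‖realPt a - realPt b‖) ∧
      ∀ a ∈ A, F a = φ a := by
  let ψ : EuclideanSpace ℝ (Fin m) → ℝ := fun x => φ (Function.invFun realPt x)
  have hψ : ∀ a, ψ (realPt a) = φ a := fun a => by
    simp only [ψ, Function.leftInverse_invFun realPt_injective a]
  have hl : LipschitzOnWith D.toNNReal ψ (realPt '' (A : Set (Fin m → ℤ))) := by
    apply LipschitzOnWith.of_dist_le_mul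
    rintro _ ⟨a, ha, rfl⟩ _ ⟨b, hb, rfl⟩
    rw [hψ, hψ, Real.dist_eq, dist_eq_norm, Real.coe_toNNReal D hD]
    exact h a ha b hb
  obtain ⟨g, hg, hgψ⟩ := hl.extend_real
  refine ⟨fun a => g (realPt a), fun a b => ?_, fun a ha => ?_⟩
  · have := hg.dist_le_mul (realPt a) (realPt b)
    rwa [Real.dist_eq, dist_eq_norm, Real.coe_toNNReal D hD] at this
  · show g (realPt a) = φ a
    rw [← hgψ ⟨a, ha, rfl⟩, hψ]

lemma two_term_rpow {p x y : ℝ} (hp : 0 ≤ p) (hx : 0 ≤ x) (hy : 0 ≤ y) :
    (x + y) ^ p ≤ 2 ^ p * (x ^ p + y ^ p) := by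
  rcases le_total x y with h | h
  · calc (x + y) ^ p ≤ (2 * y) ^ p := Real.rpow_le_rpow (by positivity) (by linarith) hp
      _ = 2 ^ p * y ^ p := Real.mul_rpow (by norm_num) hy
      _ ≤ _ := by gcongr; linarith [Real.rpow_nonneg hx p]
  · calc (x + y) ^ p ≤ (2 * x) ^ p := Real.rpow_le_rpow (by positivity) (by linarith) hp
      _ = 2 ^ p * x ^ p := Real.mul_rpow (by norm_num) hx
      _ ≤ _ := by gcongr; linarith [Real.rpow_nonneg hy p]

/-- The constant of the fluctuation bound. -/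
noncomputable def fluctConst (p : ℝ) : ℝ := 2 ^ p * (54 * (20 * p) ^ p + 1)

lemma fluctConst_pos {p : ℝ} (hp : 0 < p) : 0 < fluctConst p := by
  unfold fluctConst; positivity

/-- Scalar fluctuation bound at scale `L` in random sign directions. -/
lemma scalar_fluct {K L B : ℕ} {D p : ℝ} {F : (Fin m → ℤ) → ℝ} (hm : 1 ≤ m)
    (hK : m ^ 4 ≤ K) (hL : 2 * m * K ≤ L) (hB : B = 2 * L * m) (hD : 0 < D) (hp : 1 ≤ p)
    (hF : ∀ a b, |F a - F b| ≤ D * ‖realPt a - realPt b‖) :
    ∑ a ∈ box m 0 B, ∑ b : Fin m → Bool, |F (a + L • signVec b) - F a| ^ p ≤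
      (B : ℝ) ^ m * 2 ^ m * (fluctConst p * (D * L) ^ p) := by
  have hK0 : 0 < K := lt_of_lt_of_le (pow_pos hm 4) hK
  have hL0 : 0 < L := lt_of_lt_of_le (by positivity) hL
  have hp0 : 0 < p := lt_of_lt_of_le one_pos hp
  have hm' : (1 : ℝ) ≤ m := by exact_mod_cast hm
  set h := smooth K F with hh
  have hcard0 : ((box m 0 (B : ℤ)).card : ℝ) = (B : ℝ) ^ m := by
    rw [card_box]; simp
  have hcard1 : ((box m (-(L : ℤ)) ((B : ℤ) + L)).card : ℝ) ≤ 3 * (B : ℝ) ^ m := by
    have : ((B : ℤ) + L - -(L : ℤ)).toNat = B + 2 * L := by omega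
    rw [card_box, this]
    push_cast
    have hB' : (B : ℝ) + 2 * L = B * (1 + 1 / m) := by
      subst hB; push_cast; field_simp
    rw [hB', mul_pow, mul_comm]
    gcongr
    calc (1 + 1 / (m : ℝ)) ^ m ≤ Real.exp (1 / m) ^ m := by
          gcongr
          linarith [Real.add_one_le_exp (1 / (m : ℝ))]
      _ = Real.exp 1 := by
          rw [← Real.exp_nat_mul]; congr 1; field_simp
      _ ≤ 3 := Real.exp_one_lt_three.le
  set J := fun (x : Fin m → ℤ) (b : Fin m → Bool) => |h (x + signVec b) - h x| ^ p with hJ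
  have hsm : ∑ a ∈ box m 0 B, ∑ b : Fin m → Bool, |h (a + L • signVec b) - h a| ^ p ≤
      (L : ℝ) ^ p * (3 * (B : ℝ) ^ m * (2 ^ m * (18 * (20 * D * p) ^ p))) := by
    have tele : ∀ a b, |h (a + L • signVec b) - h a| ^ p ≤
        (L : ℝ) ^ (p - 1) * ∑ t ∈ Finset.range L, J (a + t • signVec b) b := by
      intro a b
      have e : h (a + L • signVec b) - h a = ∑ t ∈ Finset.range L,
          (h (a + t • signVec b + signVec b) - h (a + t • signVec b)) := by
        have := Finset.sum_range_sub (fun t => h (a + t • signVec b)) L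
        simp only [zero_smul, add_zero, succ_nsmul, ← add_assoc] at this
        exact this.symm
      rw [e]
      refine (Real.rpow_le_rpow (abs_nonneg _) (Finset.abs_sum_le_sum_abs _ _) hp0.le).trans ?_
      have := Real.rpow_sum_le_const_mul_sum_rpow (Finset.range L)
        (fun t => h (a + t • signVec b + signVec b) - h (a + t • signVec b)) hp
      simpa [hJ] using this
    calc ∑ a ∈ box m 0 B, ∑ b : Fin m → Bool, |h (a + L • signVec b) - h a| ^ p
        ≤ ∑ a ∈ box m 0 B, ∑ b : Fin m → Bool,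
            (L : ℝ) ^ (p - 1) * ∑ t ∈ Finset.range L, J (a + t • signVec b) b :=
          Finset.sum_le_sum fun a _ => Finset.sum_le_sum fun b _ => tele a b
      _ = (L : ℝ) ^ (p - 1) * ∑ t ∈ Finset.range L, ∑ b : Fin m → Bool,
            ∑ a ∈ box m 0 B, J (a + t • signVec b) b := by
          simp only [← Finset.mul_sum]
          congr 1
          rw [Finset.sum_comm, Finset.sum_congr rfl fun b _ => Finset.sum_comm]
          exact Finset.sum_comm
      _ ≤ (L : ℝ) ^ (p - 1) * ∑ t ∈ Finset.range L, ∑ b : Fin m → Bool,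
            ∑ x ∈ box m (-(L : ℤ)) ((B : ℤ) + L), J x b := by
          gcongr with t ht b
          rw [← Finset.sum_image (f := fun x => J x b) (g := fun a => a + t • signVec b)
            (fun x _ y _ hxy => add_right_cancel hxy)]
          refine Finset.sum_le_sum_of_subset_of_nonneg ?_ fun x _ _ =>
            Real.rpow_nonneg (abs_nonneg _) _
          intro x hx
          obtain ⟨a, ha, rfl⟩ := Finset.mem_image.1 hx
          exact translate_mem b (Finset.mem_range.1 ht).le ha
      _ ≤ (L : ℝ) ^ (p - 1) * ∑ _t ∈ Finset.range L,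
            ∑ _x ∈ box m (-(L : ℤ)) ((B : ℤ) + L), (2 : ℝ) ^ m * (18 * (20 * D * p) ^ p) := by
          gcongr with t ht
          rw [Finset.sum_comm]
          exact Finset.sum_le_sum fun x _ => sum_sign_step hm hK hD hp0 hF x
      _ ≤ (L : ℝ) ^ (p - 1) * ((L : ℝ) *
            (3 * (B : ℝ) ^ m * (2 ^ m * (18 * (20 * D * p) ^ p)))) := by
          simp only [Finset.sum_const, Finset.card_range, nsmul_eq_mul]
          gcongr
      _ = _ := by
          rw [← mul_assoc]
          congr 1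
          rw [← Real.rpow_add_one (by positivity) (p - 1), sub_add_cancel]
  have pt : ∀ a b, |F (a + L • signVec b) - F a| ^ p ≤
      2 ^ p * (|h (a + L • signVec b) - h a| ^ p + (D * L) ^ p) := by
    intro a b
    refine le_trans ?_ (two_term_rpow hp0.le (abs_nonneg _) (by positivity))
    apply Real.rpow_le_rpow (abs_nonneg _) _ hp0.le
    have e1 := abs_le.1 (smooth_near hK0 hD.le hF (a + L • signVec b))
    have e2 := abs_le.1 (smooth_near hK0 hD.le hF a)
    rw [← hh] at e1 e2
    have hs : Real.sqrt m ≤ m := by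
      rw [Real.sqrt_le_iff]; constructor <;> nlinarith
    have : 2 * (D * (Real.sqrt m * K)) ≤ D * L := by
      have hL' : (2 : ℝ) * m * K ≤ L := by exact_mod_cast hL
      calc 2 * (D * (Real.sqrt m * K)) ≤ 2 * (D * (m * K)) := by gcongr
        _ = D * (2 * m * K) := by ring
        _ ≤ D * L := by gcongr
    have e3 := le_abs_self (h (a + L • signVec b) - h a)
    have e4 := neg_abs_le (h (a + L • signVec b) - h a)
    rw [abs_le]; constructor <;> linarith [e1.1, e1.2, e2.1, e2.2]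
  calc _ ≤ ∑ a ∈ box m 0 B, ∑ b : Fin m → Bool,
        2 ^ p * (|h (a + L • signVec b) - h a| ^ p + (D * L) ^ p) :=
        Finset.sum_le_sum fun a _ => Finset.sum_le_sum fun b _ => pt a b
    _ = 2 ^ p * ((∑ a ∈ box m 0 B, ∑ b : Fin m → Bool, |h (a + L • signVec b) - h a| ^ p) +
        (B : ℝ) ^ m * (2 ^ m * (D * L) ^ p)) := by
      simp only [← Finset.mul_sum, Finset.sum_add_distrib, Finset.sum_const, Finset.card_univ,
        nsmul_eq_mul, hcard0]
      simp
      exact Or.inl (by ring)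
    _ ≤ 2 ^ p * ((L : ℝ) ^ p * (3 * (B : ℝ) ^ m * (2 ^ m * (18 * (20 * D * p) ^ p))) +
        (B : ℝ) ^ m * (2 ^ m * (D * L) ^ p)) := by gcongr
    _ = _ := by
      rw [show 20 * D * p = D * (20 * p) by ring, Real.mul_rpow (x := D) hD.le (by positivity),
        Real.mul_rpow hD.le (Nat.cast_nonneg L)]
      unfold fluctConst
      ring

/-- The side of the grid used for dimension `m`. -/
def side (m : ℕ) : ℕ := 4 * m ^ 6 + 4 * m ^ 5

/-- The grid used for dimension `m`. -/
noncomputable def grid (m : ℕ) : Finset (Fin m → ℤ) :=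
  box m (-((2 * m ^ 5 : ℕ) : ℤ)) (((4 * m ^ 6 : ℕ) : ℤ) + ((2 * m ^ 5 : ℕ) : ℤ))

lemma card_grid (m : ℕ) : (grid m).card = side m ^ m := by
  rw [grid, card_box]
  congr 1
  unfold side
  omega

lemma grid_dim {d : ℕ} {D p : ℝ} (hm : 1 ≤ m) (hD : 0 < D) (hp : 1 ≤ p)
    (f : (Fin m → ℤ) → Fin d → ℝ)
    (lower : ∀ a ∈ grid m, ∀ b ∈ grid m,
      ‖realPt a - realPt b‖ ^ p ≤ ∑ k, |f a k - f b k| ^ p)
    (upper : ∀ a ∈ grid m, ∀ b ∈ grid m, ∀ k, |f a k - f b k| ≤ D * ‖realPt a - realPt b‖) :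
    (m : ℝ) ^ (p / 2) ≤ (d : ℝ) * (fluctConst p * D ^ p) := by
  have hp0 : 0 < p := lt_of_lt_of_le one_pos hp
  set K := m ^ 4 with hK
  set L := 2 * m ^ 5 with hL
  set B := 4 * m ^ 6 with hB
  have hex := fun k => exists_extension hD.le (grid m) (fun a => f a k)
    (fun a ha b hb => upper a ha b hb k)
  choose F hFlip hFeq using hex
  have h0 : ∀ a ∈ box m 0 (B : ℤ), a ∈ grid m := by
    intro a ha
    show a ∈ box m (-(L : ℤ)) ((B : ℤ) + L)
    have := translate_mem (L := L) (fun _ => true) (Nat.zero_le L) ha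
    rwa [zero_smul, add_zero] at this
  have hT : ∀ a ∈ box m 0 (B : ℤ), ∀ b, a + L • signVec b ∈ grid m := fun a ha b =>
    translate_mem b le_rfl ha
  have key : (B : ℝ) ^ m * 2 ^ m * ((L : ℝ) * Real.sqrt m) ^ p ≤
      (B : ℝ) ^ m * 2 ^ m * ((d : ℝ) * (fluctConst p * (D * L) ^ p)) := by
    calc (B : ℝ) ^ m * 2 ^ m * ((L : ℝ) * Real.sqrt m) ^ p
        = ∑ a ∈ box m 0 (B : ℤ), ∑ _b : Fin m → Bool, ((L : ℝ) * Real.sqrt m) ^ p := by
          simp [card_box]; ring
      _ ≤ ∑ a ∈ box m 0 (B : ℤ), ∑ b : Fin m → Bool, ∑ k,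
            |F k (a + L • signVec b) - F k a| ^ p := by
          refine Finset.sum_le_sum fun a ha => Finset.sum_le_sum fun b _ => ?_
          have := lower _ (hT a ha b) _ (h0 a ha)
          rw [realPt_add_sub] at this
          have hn : ‖realPt (L • signVec b)‖ = (L : ℝ) * Real.sqrt m := by
            rw [← norm_realPt_sign b, ← Real.norm_natCast L, ← norm_smul]
            congr 1
            ext i; simp [realPt_apply]
          rw [hn] at this
          refine this.trans_eq (Finset.sum_congr rfl fun k _ => ?_)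
          rw [hFeq k _ (hT a ha b), hFeq k _ (h0 a ha)]
      _ = ∑ k, ∑ a ∈ box m 0 (B : ℤ), ∑ b : Fin m → Bool,
            |F k (a + L • signVec b) - F k a| ^ p := by
          rw [Finset.sum_congr rfl fun a _ => Finset.sum_comm]
          exact Finset.sum_comm
      _ ≤ ∑ _k : Fin d, (B : ℝ) ^ m * 2 ^ m * (fluctConst p * (D * L) ^ p) := by
          refine Finset.sum_le_sum fun k _ => scalar_fluct hm le_rfl ?_ ?_ hD hp (hFlip k)
          · rw [hL]; exact le_of_eq (by ring)
          · rw [hB, hL]; ring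
      _ = _ := by simp; ring
  have hBpos : (0 : ℝ) < (B : ℝ) ^ m * 2 ^ m := by
    have : 0 < B := by positivity
    positivity
  have key' := le_of_mul_le_mul_left key hBpos
  have hLpos : (0 : ℝ) < L := by
    have : 0 < L := by positivity
    exact_mod_cast this
  rw [Real.mul_rpow hLpos.le (Real.sqrt_nonneg _), Real.mul_rpow hD.le hLpos.le,
    Real.sqrt_eq_rpow, ← Real.rpow_mul (Nat.cast_nonneg m)] at key'
  have hLp : (0 : ℝ) < (L : ℝ) ^ p := by positivity
  refine le_of_mul_le_mul_left ?_ hLp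
  refine le_trans (le_of_eq ?_) (key'.trans (le_of_eq ?_))
  · ring_nf
  · ring

end Vale.Agent.P249
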