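import Vale.Agent.P249.Defs
import Vale.Agent.P249.Grid

/-!
Euclidean space sits isometrically (up to a scalar) inside an L_p space of a Gaussian measure,
and the resulting grid is a hard set for dimension reduction.
-/

namespace Vale.Agent.P249

open MeasureTheory ProbabilityTheory
open scoped ENNReal NNReal

variable {m : ℕ} (q : ℝ≥0∞)

/-- The scalar of the embedding. -/
noncomputable def gaussNorm : ℝ := (eLpNorm (id : ℝ → ℝ) q (gaussianReal 0 1)).toReal

lemma gaussNorm_pos (hq0 : q ≠ 0) (hq : q ≠ ∞) : 0 < gaussNorm q := by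
  refine ENNReal.toReal_pos ?_ (memLp_id_gaussianReal' q hq).eLpNorm_lt_top.ne
  rw [Ne, eLpNorm_eq_zero_iff aestronglyMeasurable_id hq0]
  intro h
  have h2 : (gaussianReal 0 1).map id = (gaussianReal 0 1).map (fun _ => (0 : ℝ)) :=
    Measure.map_congr h
  have h3 := congrArg (fun μ : Measure ℝ => μ {0}) h2
  have := nullSingletonClass_gaussianReal (μ := 0) one_ne_zero
  simp [Measure.map_const] at h3

lemma memLp_inner_gauss (hq : q ≠ ∞) (x : EuclideanSpace ℝ (Fin m)) :
    MemLp (innerSL ℝ x) q (stdGaussian (EuclideanSpace ℝ (Fin m))) :=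
  IsGaussian.memLp_dual _ _ q hq

/-- The Gaussian embedding of Euclidean space. -/
noncomputable def gaussEmb (hq : q ≠ ∞) (x : EuclideanSpace ℝ (Fin m)) :
    Lp ℝ q (stdGaussian (EuclideanSpace ℝ (Fin m))) :=
  (memLp_inner_gauss q hq x).toLp _

lemma eLpNorm_inner_gauss (x : EuclideanSpace ℝ (Fin m)) :
    eLpNorm (innerSL ℝ x) q (stdGaussian (EuclideanSpace ℝ (Fin m))) =
      ‖(‖x‖)‖ₑ * eLpNorm (id : ℝ → ℝ) q (gaussianReal 0 1) := by
  have hlaw : (stdGaussian (EuclideanSpace ℝ (Fin m))).map (innerSL ℝ x) =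
      (gaussianReal 0 1).map (fun t => ‖x‖ * t) := by
    rw [IsGaussian.map_eq_gaussianReal, integral_strongDual_stdGaussian,
      variance_dual_stdGaussian, innerSL_apply_norm, gaussianReal_map_const_mul]
    congr 1
    · simp
    · ext; simp
  calc eLpNorm (innerSL ℝ x) q (stdGaussian (EuclideanSpace ℝ (Fin m)))
      = eLpNorm id q ((stdGaussian (EuclideanSpace ℝ (Fin m))).map (innerSL ℝ x)) :=
        (eLpNorm_map_measure aestronglyMeasurable_id
          (innerSL ℝ x).continuous.aemeasurable).symm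
    _ = eLpNorm id q ((gaussianReal 0 1).map (fun t => ‖x‖ * t)) := by rw [hlaw]
    _ = eLpNorm (fun t => ‖x‖ * t) q (gaussianReal 0 1) :=
        eLpNorm_map_measure aestronglyMeasurable_id (by fun_prop)
    _ = eLpNorm (‖x‖ • (id : ℝ → ℝ)) q (gaussianReal 0 1) := rfl
    _ = _ := eLpNorm_const_smul _ _ _ _

lemma norm_gaussEmb_sub (hq : q ≠ ∞) (x y : EuclideanSpace ℝ (Fin m)) :
    ‖gaussEmb q hq x - gaussEmb q hq y‖ = ‖x - y‖ * gaussNorm q := by
  rw [gaussEmb, gaussEmb, ← MemLp.toLp_sub, Lp.norm_toLp]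
  have e : (⇑(innerSL ℝ x) - ⇑(innerSL ℝ y)) = ⇑(innerSL ℝ (x - y)) := by
    ext z; simp
  rw [e, eLpNorm_inner_gauss, ENNReal.toReal_mul]
  simp [gaussNorm]

lemma gaussEmb_injective (hq0 : q ≠ 0) (hq : q ≠ ∞) :
    Function.Injective (gaussEmb (m := m) q hq) := by
  intro x y h
  have e := norm_gaussEmb_sub q hq x y
  rw [h, sub_self, Lp.norm_zero] at e
  rcases mul_eq_zero.1 e.symm with h' | h'
  · exact sub_eq_zero.1 (norm_eq_zero.1 h')
  · exact absurd h' (gaussNorm_pos q hq0 hq).ne'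

/-- If `n` points of L_p always fit in dimension `d` with distortion `D`, then `d` is at least
`m^(p/2) / (C_p D^p)` whenever the grid of dimension `m` has at most `n` points. -/
theorem dim_lower {p D : ℝ} {n d : ℕ} (hp : 1 ≤ p) (hD : 0 < D) (hm : 1 ≤ m)
    (hn : side m ^ m ≤ n) (h : AdmitsDim p D n d) :
    (m : ℝ) ^ (p / 2) ≤ (d : ℝ) * (fluctConst p * D ^ p) := by
  classical
  have hp0 : 0 < p := lt_of_lt_of_le one_pos hp
  set q := ENNReal.ofReal p with hq_def
  have hq0 : q ≠ 0 := by simpa [q, ENNReal.ofReal_eq_zero] using hp0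
  have hq : q ≠ ∞ := ENNReal.ofReal_ne_top
  have hqr : q.toReal = p := ENNReal.toReal_ofReal hp0.le
  have hc := gaussNorm_pos q hq0 hq
  set emb : (Fin m → ℤ) → Lp ℝ q (stdGaussian (EuclideanSpace ℝ (Fin m))) :=
    fun a => gaussEmb q hq (realPt a) with hemb
  have hinj : Function.Injective emb := (gaussEmb_injective q hq0 hq).comp realPt_injective
  have : Infinite (Lp ℝ q (stdGaussian (EuclideanSpace ℝ (Fin m)))) := by
    have : Nonempty (Fin m) := ⟨⟨0, hm⟩⟩
    exact Infinite.of_injective emb hinj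
  obtain ⟨X, hXsub, hXcard⟩ := Infinite.exists_superset_card_eq ((grid m).image emb) n (by
    rw [Finset.card_image_of_injective _ hinj, card_grid]; exact hn)
  obtain ⟨f, s, hs, hf⟩ := h _ _ _ X hXcard
  have hmem : ∀ a ∈ grid m, emb a ∈ X := fun a ha => hXsub (Finset.mem_image_of_mem _ ha)
  have hsc : 0 < s * gaussNorm q := mul_pos hs hc
  refine grid_dim hm hD hp (fun a k => f (emb a) k / (s * gaussNorm q)) ?_ ?_
  · intro a ha b hb
    have hl := (hf _ (hmem a ha) _ (hmem b hb)).1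
    rw [hemb, norm_gaussEmb_sub,
      PiLp.norm_eq_sum (p := q) (β := fun _ : Fin d => ℝ) (by rw [hqr]; exact hp0), hqr] at hl
    have hnn : 0 ≤ s * (‖realPt a - realPt b‖ * gaussNorm q) := by positivity
    have hl' := Real.rpow_le_rpow hnn hl hp0.le
    rw [← Real.rpow_mul (Finset.sum_nonneg fun k _ => Real.rpow_nonneg (norm_nonneg _) _),
      one_div, inv_mul_cancel₀ hp0.ne', Real.rpow_one,
      mul_left_comm, Real.mul_rpow (norm_nonneg _) hsc.le] at hl'
    simp only [← sub_div, abs_div, abs_of_pos hsc, Real.div_rpow (abs_nonneg _) hsc.le,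
      ← Finset.sum_div]
    rw [le_div_iff₀ (Real.rpow_pos_of_pos hsc p)]
    simpa [hemb, PiLp.sub_apply] using hl'
  · intro a ha b hb k
    have hu := (hf _ (hmem a ha) _ (hmem b hb)).2
    have : Fact (1 ≤ q) := ⟨by rw [hq_def, ← ENNReal.ofReal_one]; exact ENNReal.ofReal_le_ofReal hp⟩
    have hk := (PiLp.norm_apply_le (f (emb a) - f (emb b)) k).trans hu
    rw [hemb, norm_gaussEmb_sub] at hk
    rw [← sub_div, abs_div, abs_of_pos hsc, div_le_iff₀ hsc]
    simp only [PiLp.sub_apply, Real.norm_eq_abs] at hk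
    refine hk.trans_eq ?_
    ring

end Vale.Agent.P249
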