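import Vale.Agent.P249.Spanner

/-!
Coordinate sampling by sensitivities along a spanner.
-/

namespace Vale.Agent.P249

open Finset

variable {ι : Type*} [Fintype ι]

lemma sum_pi_prod_exp {d : ℕ} (q Z : ι → ℝ) (c : ℝ) :
    ∑ s : Fin d → ι, (∏ k, q (s k)) * Real.exp (c * ∑ k, Z (s k)) =
      (∑ i, q i * Real.exp (c * Z i)) ^ d := by
  classical
  have : (∑ i, q i * Real.exp (c * Z i)) ^ d =
      ∏ _k : Fin d, ∑ i, q i * Real.exp (c * Z i) := by simp
  rw [this, Fintype.prod_sum]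
  refine Finset.sum_congr rfl fun s _ => ?_
  rw [Finset.prod_mul_distrib, ← Real.exp_sum, Finset.mul_sum]

/-- Chernoff bound for one side. -/
lemma chernoff_side {d : ℕ} {q Z : ι → ℝ} {M η σ : ℝ} (hq : ∀ i, 0 ≤ q i)
    (hq1 : ∑ i, q i = 1) (hZ : ∀ i, 0 ≤ Z i) (hZM : ∀ i, Z i ≤ M) (hmean : ∑ i, q i * Z i = 1)
    (hM : 0 < M) (hη : 0 < η) (hη1 : η ≤ 1) (hσ : σ = 1 ∨ σ = -1) :
    ∑ s : Fin d → ι, (∏ k, q (s k)) *
        (Real.exp (σ * η / (2 * M) * ∑ k, Z (s k)) *
          Real.exp (-((d : ℝ) * (σ * η / (2 * M) * (1 + σ * η))))) ≤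
      Real.exp (-((d : ℝ) * (η ^ 2 / (4 * M)))) := by
  set c := σ * η / (2 * M) with hc
  have hσ2 : σ ^ 2 = 1 := by rcases hσ with rfl | rfl <;> norm_num
  have hσa : |σ| = 1 := by rcases hσ with rfl | rfl <;> norm_num
  simp only [← mul_assoc]
  rw [← Finset.sum_mul, sum_pi_prod_exp]
  have hone : ∀ i, Real.exp (c * Z i) ≤ 1 + c * Z i + c ^ 2 * (M * Z i) := by
    intro i
    have habs : |c * Z i| ≤ 1 := by
      rw [hc, abs_mul, abs_div, abs_mul, hσa, one_mul, abs_of_pos hη,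
        abs_of_pos (by positivity : (0 : ℝ) < 2 * M), abs_of_nonneg (hZ i),
        div_mul_eq_mul_div, div_le_one (by positivity)]
      calc η * Z i ≤ 1 * M := mul_le_mul hη1 (hZM i) (hZ i) zero_le_one
        _ ≤ 2 * M := by linarith
    have h1 := (abs_le.1 (Real.abs_exp_sub_one_sub_id_le habs)).2
    have h2 : (c * Z i) ^ 2 ≤ c ^ 2 * (M * Z i) := by
      rw [mul_pow]
      refine mul_le_mul_of_nonneg_left ?_ (sq_nonneg c)
      rw [sq]
      exact mul_le_mul_of_nonneg_right (hZM i) (hZ i)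
    linarith
  have hsum : ∑ i, q i * Real.exp (c * Z i) ≤ Real.exp (c + c ^ 2 * M) := by
    calc ∑ i, q i * Real.exp (c * Z i)
        ≤ ∑ i, (q i + (c + c ^ 2 * M) * (q i * Z i)) := by
          refine Finset.sum_le_sum fun i _ => ?_
          calc q i * Real.exp (c * Z i) ≤ q i * (1 + c * Z i + c ^ 2 * (M * Z i)) :=
                mul_le_mul_of_nonneg_left (hone i) (hq i)
            _ = _ := by ring
      _ = 1 + (c + c ^ 2 * M) := by
          rw [Finset.sum_add_distrib, ← Finset.mul_sum, hq1, hmean, mul_one]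
      _ ≤ _ := by linarith [Real.add_one_le_exp (c + c ^ 2 * M)]
  calc (∑ i, q i * Real.exp (c * Z i)) ^ d * Real.exp (-((d : ℝ) * c * (1 + σ * η)))
      ≤ Real.exp (c + c ^ 2 * M) ^ d * Real.exp (-((d : ℝ) * c * (1 + σ * η))) := by
        have : 0 ≤ ∑ i, q i * Real.exp (c * Z i) :=
          Finset.sum_nonneg fun i _ => mul_nonneg (hq i) (Real.exp_pos _).le
        gcongr
    _ = Real.exp (-((d : ℝ) * (η ^ 2 / (4 * M)))) := by
        rw [← Real.exp_nat_mul, ← Real.exp_add, hc]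
        congr 1
        field_simp
        rcases hσ with rfl | rfl <;> ring

/-- A sample on which finitely many statistics are all within `η` of their means. -/
lemma exists_sample {P : Type*} [Fintype P] {d : ℕ} {q : ι → ℝ} {Z : P → ι → ℝ} {M η : ℝ}
    (hq : ∀ i, 0 ≤ q i) (hq1 : ∑ i, q i = 1) (hZ : ∀ a i, 0 ≤ Z a i)
    (hZM : ∀ a i, Z a i ≤ M) (hmean : ∀ a, ∑ i, q i * Z a i = 1)
    (hM : 0 < M) (hη : 0 < η) (hη1 : η ≤ 1)
    (hd : 2 * (Fintype.card P : ℝ) * Real.exp (-((d : ℝ) * (η ^ 2 / (4 * M)))) < 1) :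
    ∃ s : Fin d → ι, ∀ a, (1 - η) * d ≤ ∑ k, Z a (s k) ∧ ∑ k, Z a (s k) ≤ (1 + η) * d := by
  classical
  by_contra hc
  push Not at hc
  set E := fun (σ : ℝ) (a : P) (s : Fin d → ι) =>
    Real.exp (σ * η / (2 * M) * ∑ k, Z a (s k)) *
      Real.exp (-((d : ℝ) * (σ * η / (2 * M) * (1 + σ * η)))) with hE
  have hpos : ∀ σ a s, 0 < E σ a s := fun σ a s => mul_pos (Real.exp_pos _) (Real.exp_pos _)
  have hbad : ∀ s : Fin d → ι, 1 ≤ ∑ a, (E 1 a s + E (-1) a s) := by
    intro s
    obtain ⟨a, ha⟩ := hc s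
    refine le_trans ?_ (Finset.single_le_sum
      (fun b _ => (add_pos (hpos 1 b s) (hpos (-1) b s)).le) (Finset.mem_univ a))
    have hex : ∀ σ : ℝ, 0 ≤ σ * η / (2 * M) * (∑ k, Z a (s k) - (1 + σ * η) * d) →
        1 ≤ E σ a s := by
      intro σ h
      simp only [hE]
      rw [← Real.exp_add]
      exact Real.one_le_exp (h.trans_eq (by ring))
    by_cases hlo : (1 - η) * (d : ℝ) ≤ ∑ k, Z a (s k)
    · refine le_trans (hex 1 (mul_nonneg (by positivity) ?_)) (by linarith [hpos (-1) a s])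
      linarith [ha hlo]
    · refine le_trans (hex (-1) ?_) (by linarith [hpos 1 a s])
      push Not at hlo
      apply mul_nonneg_of_nonpos_of_nonpos
      · exact div_nonpos_of_nonpos_of_nonneg (by linarith) (by positivity)
      · linarith
  have h1 : ∑ s : Fin d → ι, ∏ k, q (s k) = 1 := by
    have := sum_pi_prod_exp (d := d) q (fun _ => 0) 0
    simpa [hq1] using this
  have : (1 : ℝ) ≤ 2 * (Fintype.card P : ℝ) * Real.exp (-((d : ℝ) * (η ^ 2 / (4 * M)))) := by
    calc (1 : ℝ) = ∑ s : Fin d → ι, (∏ k, q (s k)) * 1 := by simpa using h1.symm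
      _ ≤ ∑ s : Fin d → ι, (∏ k, q (s k)) * ∑ a, (E 1 a s + E (-1) a s) :=
          Finset.sum_le_sum fun s _ =>
            mul_le_mul_of_nonneg_left (hbad s) (Finset.prod_nonneg fun k _ => hq _)
      _ = ∑ a, ((∑ s : Fin d → ι, (∏ k, q (s k)) * E 1 a s) +
            ∑ s : Fin d → ι, (∏ k, q (s k)) * E (-1) a s) := by
          simp only [Finset.mul_sum, mul_add]
          rw [Finset.sum_comm]
          simp only [Finset.sum_add_distrib]
      _ ≤ ∑ _a : P, 2 * Real.exp (-((d : ℝ) * (η ^ 2 / (4 * M)))) := by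
          refine Finset.sum_le_sum fun a _ => ?_
          have := chernoff_side (d := d) hq hq1 (hZ a) (hZM a) (hmean a) hM hη hη1
            (σ := 1) (Or.inl rfl)
          have := chernoff_side (d := d) hq hq1 (hZ a) (hZM a) (hmean a) hM hη hη1
            (σ := -1) (Or.inr rfl)
          linarith
      _ = _ := by simp; ring
  linarith

/-- Dimension reduction for a finite configuration in a weighted finite `p`-norm space. -/
theorem finite_reduction {V : Type*} [Fintype V] [DecidableEq V] {p η : ℝ} (hp : 1 ≤ p)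
    (hη : 0 < η) (hη1 : η ≤ 1) (w : ι → ℝ) (hw : ∀ i, 0 ≤ w i) (X : V → ι → ℝ)
    (hX : ∀ x y, x ≠ y → 0 < ∑ i, w i * |X x i - X y i| ^ p) {k : ℕ}
    (hk : Fintype.card V < 2 ^ k) (hn : 2 ≤ Fintype.card V) {d : ℕ}
    (hd : 8 * (Fintype.card V : ℝ) * ((2 * k + 1 : ℕ) : ℝ) ^ p / η ^ 2 *
      Real.log (3 * (Fintype.card V : ℝ) ^ 2) < d) :
    ∃ F : V → Fin d → ℝ, ∀ x y,
      (1 - η) * (∑ i, w i * |X x i - X y i| ^ p) ≤ ∑ j, |F x j - F y j| ^ p ∧
        ∑ j, |F x j - F y j| ^ p ≤ (1 + η) * (∑ i, w i * |X x i - X y i| ^ p) := by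
  classical
  have hp0 : 0 < p := lt_of_lt_of_le one_pos hp
  set n := Fintype.card V with hn_def
  set S := fun x y => ∑ i, w i * |X x i - X y i| ^ p with hS
  set δ := fun x y => S x y ^ p⁻¹ with hδ
  have hSsymm : ∀ x y, S x y = S y x := fun x y => by simp only [hS, abs_sub_comm]
  have hSnn : ∀ x y, 0 ≤ S x y := fun x y =>
    Finset.sum_nonneg fun i _ => mul_nonneg (hw i) (Real.rpow_nonneg (abs_nonneg _) _)
  have hδp : ∀ x y, δ x y ^ p = S x y := fun x y => by
    simp only [hδ]; rw [Real.rpow_inv_rpow (hSnn x y) hp0.ne']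
  obtain ⟨G, hGcard, hG⟩ := exists_spanner δ (fun x y => by simp only [hδ, hSsymm x y]) hk
  let slope : Sym2 V → ι → ℝ := fun e i => Sym2.lift
    ⟨fun u v => |X u i - X v i| ^ p / S u v,
      fun u v => by simp only [abs_sub_comm (X u i), hSsymm u v]⟩ e
  have hslope0 : ∀ e i, 0 ≤ slope e i := by
    intro e i
    induction e using Sym2.ind with
    | _ u v => exact div_nonneg (Real.rpow_nonneg (abs_nonneg _) _) (hSnn u v)
  set Γ := fun i => ∑ e ∈ G, slope e i with hΓ
  have hΓ0 : ∀ i, 0 ≤ Γ i := fun i => Finset.sum_nonneg fun e _ => hslope0 e i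
  set σ := fun i => w i * Γ i with hσ
  have hσ0 : ∀ i, 0 ≤ σ i := fun i => mul_nonneg (hw i) (hΓ0 i)
  set T := ((2 * k + 1 : ℕ) : ℝ) with hT
  have hT0 : 0 < T := by rw [hT]; positivity
  have hpair : ∀ x y i, |X x i - X y i| ^ p ≤ T ^ p * Γ i * S x y := by
    intro x y i
    rcases eq_or_ne x y with rfl | hxy
    · rw [sub_self, abs_zero, Real.zero_rpow hp0.ne']
      exact mul_nonneg (mul_nonneg (Real.rpow_nonneg hT0.le _) (hΓ0 i)) (hSnn x x)
    have h := hG x y hxy (fun v => X v i) (Γ i ^ p⁻¹) (Real.rpow_nonneg (hΓ0 i) _) (by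
      intro u v huv
      rcases eq_or_ne u v with rfl | huv'
      · rw [sub_self, abs_zero]
        exact mul_nonneg (Real.rpow_nonneg (hΓ0 i) _) (Real.rpow_nonneg (hSnn u u) _)
      have h1 : |X u i - X v i| ^ p ≤ Γ i * S u v := by
        have : |X u i - X v i| ^ p / S u v ≤ Γ i :=
          Finset.single_le_sum (f := fun e => slope e i) (fun e _ => hslope0 e i) huv
        rwa [div_le_iff₀ (show 0 < S u v from hX u v huv')] at this
      have := Real.rpow_le_rpow (Real.rpow_nonneg (abs_nonneg _) _) h1 (inv_nonneg.2 hp0.le)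
      rwa [Real.rpow_rpow_inv (abs_nonneg _) hp0.ne', Real.mul_rpow (hΓ0 i) (hSnn u v)] at this)
    have h2 := Real.rpow_le_rpow (abs_nonneg _) h hp0.le
    rwa [Real.mul_rpow (mul_nonneg hT0.le (Real.rpow_nonneg (hΓ0 i) _))
        (Real.rpow_nonneg (hSnn x y) _),
      Real.mul_rpow hT0.le (Real.rpow_nonneg (hΓ0 i) _), Real.rpow_inv_rpow (hΓ0 i) hp0.ne',
      hδp] at h2
  set W := ∑ i, σ i with hW
  have hWle : W ≤ 2 * (n : ℝ) := by
    calc W = ∑ e ∈ G, ∑ i, w i * slope e i := by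
          simp only [hW, hσ, hΓ, Finset.mul_sum]; exact Finset.sum_comm
      _ ≤ ∑ _e ∈ G, (1 : ℝ) := by
          refine Finset.sum_le_sum fun e _ => ?_
          induction e using Sym2.ind with
          | _ u v =>
            have : ∀ i, w i * slope s(u, v) i = w i * |X u i - X v i| ^ p / S u v :=
              fun i => (mul_div_assoc _ _ _).symm
            simp only [this, ← Finset.sum_div]
            exact div_self_le_one (S u v)
      _ ≤ 2 * (n : ℝ) := by simp; exact_mod_cast hGcard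
  have hzero : ∀ x y i, σ i = 0 → w i * |X x i - X y i| ^ p = 0 := by
    intro x y i h
    rcases mul_eq_zero.1 (show w i * Γ i = 0 from h) with h' | h'
    · simp [h']
    · have := hpair x y i
      rw [h', mul_zero, zero_mul] at this
      rw [le_antisymm this (Real.rpow_nonneg (abs_nonneg _) _), mul_zero]
  obtain ⟨x0, y0, hxy0⟩ := Fintype.one_lt_card_iff.1 (show 1 < Fintype.card V by omega)
  have hWpos : 0 < W := by
    refine lt_of_le_of_ne (Finset.sum_nonneg fun i _ => hσ0 i) fun h => ?_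
    have h' := (Finset.sum_eq_zero_iff_of_nonneg fun i _ => hσ0 i).1 h.symm
    have := hX x0 y0 hxy0
    rw [Finset.sum_eq_zero fun i hi => hzero x0 y0 i (h' i hi)] at this
    exact lt_irrefl _ this
  let Z : {a : V × V // a.1 ≠ a.2} → ι → ℝ := fun a i =>
    W * (w i * |X a.1.1 i - X a.1.2 i| ^ p) / σ i / S a.1.1 a.1.2
  set M := 2 * (n : ℝ) * T ^ p with hM
  have hn0 : (2 : ℝ) ≤ n := by exact_mod_cast hn
  have hM0 : 0 < M := by positivity
  have hZ0 : ∀ a i, 0 ≤ Z a i := fun a i => div_nonneg (div_nonneg (mul_nonneg hWpos.le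
    (mul_nonneg (hw i) (Real.rpow_nonneg (abs_nonneg _) _))) (hσ0 i)) (hSnn _ _)
  have hZM : ∀ a i, Z a i ≤ M := by
    intro a i
    rcases eq_or_lt_of_le (hσ0 i) with h | h
    · simp only [Z, ← h, div_zero, zero_div]; exact hM0.le
    have hs : 0 < S a.1.1 a.1.2 := hX _ _ a.2
    simp only [Z]
    rw [div_le_iff₀ hs, div_le_iff₀ h]
    calc W * (w i * |X a.1.1 i - X a.1.2 i| ^ p)
        ≤ (2 * (n : ℝ)) * (w i * (T ^ p * Γ i * S a.1.1 a.1.2)) := by
          have := hw i
          have := hpair a.1.1 a.1.2 i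
          gcongr
      _ = M * S a.1.1 a.1.2 * σ i := by simp only [hM, hσ]; ring
  have hmean : ∀ a, ∑ i, σ i / W * Z a i = 1 := by
    intro a
    have hs : 0 < S a.1.1 a.1.2 := hX _ _ a.2
    have : ∀ i, σ i / W * Z a i = w i * |X a.1.1 i - X a.1.2 i| ^ p / S a.1.1 a.1.2 := by
      intro i
      simp only [Z]
      rcases eq_or_lt_of_le (hσ0 i) with h | h
      · rw [hzero _ _ i h.symm]; simp
      · field_simp
    simp only [this, ← Finset.sum_div]
    exact div_self hs.ne'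
  have hlog : 0 < Real.log (3 * (n : ℝ) ^ 2) := Real.log_pos (by nlinarith)
  have hdpos : (0 : ℝ) < d := lt_of_le_of_lt (by positivity) hd
  obtain ⟨s, hs⟩ := exists_sample (d := d) (Z := Z) (M := M) (η := η) (q := fun i => σ i / W)
    (fun i => div_nonneg (hσ0 i) hWpos.le) (by rw [← Finset.sum_div]; exact div_self hWpos.ne')
    hZ0 hZM hmean hM0 hη hη1 (by
      have hP : (Fintype.card {a : V × V // a.1 ≠ a.2} : ℝ) ≤ (n : ℝ) ^ 2 := by
        have := Fintype.card_subtype_le fun a : V × V => a.1 ≠ a.2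
        rw [Fintype.card_prod] at this
        rw [sq]
        exact_mod_cast this
      have h1 : Real.log (3 * (n : ℝ) ^ 2) < (d : ℝ) * (η ^ 2 / (4 * M)) := by
        rw [mul_div_assoc', lt_div_iff₀ (by positivity)]
        rw [div_mul_eq_mul_div, div_lt_iff₀ (by positivity)] at hd
        simp only [hM]
        linarith
      have h2 : Real.exp (-((d : ℝ) * (η ^ 2 / (4 * M)))) < 1 / (3 * (n : ℝ) ^ 2) := by
        rw [one_div, ← Real.exp_log (by positivity : (0 : ℝ) < 3 * (n : ℝ) ^ 2), ← Real.exp_neg]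
        exact Real.exp_lt_exp.2 (by linarith)
      calc 2 * (Fintype.card {a : V × V // a.1 ≠ a.2} : ℝ) *
            Real.exp (-((d : ℝ) * (η ^ 2 / (4 * M))))
          ≤ 2 * (n : ℝ) ^ 2 * (1 / (3 * (n : ℝ) ^ 2)) :=
            mul_le_mul (by linarith) h2.le (Real.exp_pos _).le (by positivity)
        _ < 1 := by field_simp; norm_num)
  let scale : ι → ℝ := fun i => (W * w i / σ i / d) ^ p⁻¹
  refine ⟨fun x j => scale (s j) * X x (s j), fun x y => ?_⟩
  change (1 - η) * S x y ≤ _ ∧ _ ≤ (1 + η) * S x y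
  rcases eq_or_ne x y with rfl | hxy
  · simp [hS, Real.zero_rpow hp0.ne']
  have hterm : ∀ j, |scale (s j) * X x (s j) - scale (s j) * X y (s j)| ^ p =
      S x y / d * Z ⟨(x, y), hxy⟩ (s j) := by
    intro j
    have hnn : 0 ≤ W * w (s j) / σ (s j) / d :=
      div_nonneg (div_nonneg (mul_nonneg hWpos.le (hw _)) (hσ0 _)) hdpos.le
    rw [← mul_sub, abs_mul, abs_of_nonneg (Real.rpow_nonneg hnn _),
      Real.mul_rpow (Real.rpow_nonneg hnn _) (abs_nonneg _), Real.rpow_inv_rpow hnn hp0.ne']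
    simp only [Z]
    have hs0 : 0 < S x y := hX x y hxy
    field_simp
  rw [Finset.sum_congr rfl fun j _ => hterm j, ← Finset.mul_sum]
  obtain ⟨h1, h2⟩ := hs ⟨(x, y), hxy⟩
  have hsd : 0 ≤ S x y / d := div_nonneg (hSnn x y) hdpos.le
  constructor
  · calc (1 - η) * S x y = S x y / d * ((1 - η) * d) := by field_simp
      _ ≤ _ := mul_le_mul_of_nonneg_left h1 hsd
  · calc _ ≤ S x y / d * ((1 + η) * d) := mul_le_mul_of_nonneg_left h2 hsd
      _ = (1 + η) * S x y := by field_simp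

end Vale.Agent.P249
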