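import Mathlib

/-!
Discrete smoothing on the integer grid: the fluctuation of a scalar function which is
Lipschitz for the Euclidean distance along a random sign direction is dimension free.
-/

namespace Vale.Agent.P249

open Finset

variable {m K : ℕ}

/-- The real point of an integer vector. -/
noncomputable def realPt (v : Fin m → ℤ) : EuclideanSpace ℝ (Fin m) :=
  WithLp.toLp 2 fun i => (v i : ℝ)

lemma realPt_apply (v : Fin m → ℤ) (i : Fin m) : realPt v i = (v i : ℝ) := rfl

lemma realPt_sub (v w : Fin m → ℤ) : realPt (v - w) = realPt v - realPt w := by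
  ext i; simp [realPt_apply]

lemma realPt_add_sub (v w : Fin m → ℤ) : realPt (v + w) - realPt v = realPt w := by
  ext i; simp [realPt_apply]

lemma norm_realPt_le_sum (v : Fin m → ℤ) : ‖realPt v‖ ≤ ∑ i, |(v i : ℝ)| := by
  rw [EuclideanSpace.norm_eq]
  apply Real.sqrt_le_iff.2 ⟨Finset.sum_nonneg fun i _ => abs_nonneg _, ?_⟩
  simp only [Real.norm_eq_abs, realPt_apply]
  exact Finset.sum_sq_le_sq_sum_of_nonneg fun i _ => abs_nonneg _

lemma norm_realPt_le_of_bound (v : Fin m → ℤ) {S : ℝ} (hS : 0 ≤ S)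
    (hv : ∀ i, |(v i : ℝ)| ≤ S) : ‖realPt v‖ ≤ Real.sqrt m * S := by
  rw [EuclideanSpace.norm_eq]
  calc Real.sqrt (∑ i, ‖realPt v i‖ ^ 2) ≤ Real.sqrt (∑ _i : Fin m, S ^ 2) := by
        gcongr with i
        simpa [realPt_apply] using hv i
    _ = Real.sqrt m * S := by
        simp [Real.sqrt_sq hS]

/-- Average over the translates by the discrete cube of side `K`. -/
noncomputable def smooth (K : ℕ) (F : (Fin m → ℤ) → ℝ) (a : Fin m → ℤ) : ℝ :=
  (∑ u : Fin m → Fin K, F (a + fun i => ((u i : ℕ) : ℤ))) / (K : ℝ) ^ m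

lemma smooth_sub (F G : (Fin m → ℤ) → ℝ) (a : Fin m → ℤ) :
    smooth K (fun x => F x - G x) a = smooth K F a - smooth K G a := by
  simp [smooth, Finset.sum_sub_distrib, sub_div]

lemma smooth_shift (F : (Fin m → ℤ) → ℝ) (a v : Fin m → ℤ) :
    smooth K (fun x => F (x + v)) a = smooth K F (a + v) := by
  simp only [smooth, add_right_comm]

lemma abs_avg_le (hK : 0 < K) (φ : (Fin m → Fin K) → ℝ) {M : ℝ}
    (hφ : ∀ u, |φ u| ≤ M) : |(∑ u, φ u) / (K : ℝ) ^ m| ≤ M := by
  have hKm : (0 : ℝ) < (K : ℝ) ^ m := by positivity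
  rw [abs_div, abs_of_pos hKm, div_le_iff₀ hKm]
  calc |∑ u, φ u| ≤ ∑ u, |φ u| := Finset.abs_sum_le_sum_abs _ _
    _ ≤ ∑ _u : Fin m → Fin K, M := Finset.sum_le_sum fun u _ => hφ u
    _ = M * (K : ℝ) ^ m := by simp [mul_comm]

variable {D : ℝ} {F : (Fin m → ℤ) → ℝ}

lemma smooth_near (hK : 0 < K) (hD : 0 ≤ D)
    (hF : ∀ a b, |F a - F b| ≤ D * ‖realPt a - realPt b‖) (a : Fin m → ℤ) :
    |smooth K F a - F a| ≤ D * (Real.sqrt m * K) := by
  have hKm : (0 : ℝ) < (K : ℝ) ^ m := by positivity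
  have : smooth K F a - F a =
      (∑ u : Fin m → Fin K, (F (a + fun i => ((u i : ℕ) : ℤ)) - F a)) / (K : ℝ) ^ m := by
    rw [Finset.sum_sub_distrib, sub_div, smooth]
    simp [hKm.ne']
  rw [this]
  apply abs_avg_le hK
  intro u
  refine (hF _ _).trans (mul_le_mul_of_nonneg_left ?_ hD)
  rw [realPt_add_sub]
  apply norm_realPt_le_of_bound _ (Nat.cast_nonneg K)
  intro i
  simp only [Int.cast_natCast, Nat.abs_cast]
  exact_mod_cast (u i).isLt.le

lemma smooth_lip (hK : 0 < K) (hF : ∀ a b, |F a - F b| ≤ D * ‖realPt a - realPt b‖)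
    (a b : Fin m → ℤ) : |smooth K F a - smooth K F b| ≤ D * ‖realPt a - realPt b‖ := by
  rw [smooth, smooth, ← sub_div, ← Finset.sum_sub_distrib]
  apply abs_avg_le hK
  intro u
  refine (hF _ _).trans_eq ?_
  rw [← realPt_sub, ← realPt_sub]
  congr 3
  abel

/-- Averaging a bounded function makes each unit increment small. -/
lemma smooth_bdd_step (hK : 0 < K) (G : (Fin m → ℤ) → ℝ) {M : ℝ}
    (hG : ∀ x, |G x| ≤ M) (a : Fin m → ℤ) (i : Fin m) :
    |smooth K G (a + Pi.single i 1) - smooth K G a| ≤ 2 * M / K := by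
  classical
  have hM : 0 ≤ M := (abs_nonneg _).trans (hG a)
  set e := Equiv.piSplitAt i (fun _ : Fin m => Fin K)
  let b : ({j : Fin m // j ≠ i} → Fin K) → (Fin m → ℤ) := fun r j =>
    a j + if h : j = i then 0 else ((r ⟨j, h⟩ : ℕ) : ℤ)
  let g : ({j : Fin m // j ≠ i} → Fin K) → ℕ → ℝ := fun r t =>
    G (b r + Pi.single i (t : ℤ))
  have hcoord : ∀ (t : Fin K) r,
      (a + fun j => (((e.symm (t, r)) j : ℕ) : ℤ)) = b r + Pi.single i ((t : ℕ) : ℤ) := by
    intro t r
    ext j
    by_cases h : j = i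
    · subst h; simp [e, b, Equiv.piSplitAt]
    · simp [e, b, h, Equiv.piSplitAt]
  have hsum : (∑ u : Fin m → Fin K, (G (a + Pi.single i 1 + fun j => ((u j : ℕ) : ℤ)) -
      G (a + fun j => ((u j : ℕ) : ℤ)))) =
      ∑ r : {j : Fin m // j ≠ i} → Fin K, (g r K - g r 0) := by
    rw [← e.symm.sum_comp, Fintype.sum_prod_type, Finset.sum_comm]
    refine Finset.sum_congr rfl fun r _ => ?_
    rw [← Finset.sum_range_sub (g r) K,
      ← Fin.sum_univ_eq_sum_range (fun t => g r (t + 1) - g r t) K]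
    refine Finset.sum_congr rfl fun t _ => ?_
    rw [hcoord t r, add_right_comm a, hcoord t r, add_assoc, ← Pi.single_add]
    simp [g]
  have hcard : Fintype.card (Fin m → Fin K) =
      K * Fintype.card ({j : Fin m // j ≠ i} → Fin K) := by
    rw [Fintype.card_congr e, Fintype.card_prod, Fintype.card_fin]
  have hKm : (K : ℝ) ^ m = K * (Fintype.card ({j : Fin m // j ≠ i} → Fin K) : ℝ) := by
    rw [← Nat.cast_mul, ← hcard]; simp
  have hKpos : (0 : ℝ) < (K : ℝ) ^ m := by positivity
  rw [smooth, smooth, ← sub_div, ← Finset.sum_sub_distrib, hsum, abs_div, abs_of_pos hKpos,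
    div_le_div_iff₀ hKpos (by positivity)]
  calc |∑ r, (g r K - g r 0)| * (K : ℝ)
      ≤ (∑ _r : {j : Fin m // j ≠ i} → Fin K, 2 * M) * K := by
        gcongr
        refine (Finset.abs_sum_le_sum_abs _ _).trans (Finset.sum_le_sum fun r _ => ?_)
        calc |g r K - g r 0| ≤ |g r K| + |g r 0| := abs_sub _ _
          _ ≤ 2 * M := by
            have h1 : |g r K| ≤ M := hG _
            have h2 : |g r 0| ≤ M := hG _
            linarith
    _ = 2 * M * (K : ℝ) ^ m := by rw [hKm]; simp; ring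

/-- The discrete gradient of the smoothed function. -/
noncomputable def grad (K : ℕ) (F : (Fin m → ℤ) → ℝ) (a : Fin m → ℤ) (i : Fin m) : ℝ :=
  smooth K F (a + Pi.single i 1) - smooth K F a

lemma grad_lip (hK : 0 < K)
    (hF : ∀ a b, |F a - F b| ≤ D * ‖realPt a - realPt b‖)
    (a v : Fin m → ℤ) (i : Fin m) :
    |grad K F (a + v) i - grad K F a i| ≤ 2 * D * ‖realPt v‖ / K := by
  have h := smooth_bdd_step hK (fun x => F (x + v) - F x) (M := D * ‖realPt v‖) (fun x => by
    simpa [realPt_add_sub] using hF (x + v) x) a i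
  simp only [smooth_sub, smooth_shift] at h
  rw [add_right_comm] at h
  simp only [grad]
  rw [mul_assoc 2 D]
  convert h using 1
  congr 1
  ring

lemma linearize (hK : 0 < K) (hD : 0 ≤ D)
    (hF : ∀ a b, |F a - F b| ≤ D * ‖realPt a - realPt b‖)
    (a w : Fin m → ℤ) (T : ℕ) (hT : ∑ i, (w i).natAbs ≤ T) :
    |smooth K F (a + w) - smooth K F a - ∑ i, (w i : ℝ) * grad K F a i| ≤
      2 * D * (T : ℝ) ^ 2 / K := by
  classical
  induction T generalizing w with
  | zero =>
    have hw : w = 0 := by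
      ext i
      have := (Finset.single_le_sum (fun j _ => Nat.zero_le (w j).natAbs)
        (Finset.mem_univ i)).trans hT
      simpa using this
    simp [hw]
  | succ T ih =>
    by_cases hw : ∀ i, w i = 0
    · have : w = 0 := funext hw
      subst this
      simp only [add_zero, sub_self, Pi.zero_apply, Int.cast_zero, zero_mul, Finset.sum_const_zero,
        abs_zero]
      positivity
    push Not at hw
    obtain ⟨i, hi⟩ := hw
    have norm_le : ∀ v : Fin m → ℤ, ∀ S : ℕ, ∑ j, (v j).natAbs ≤ S → ‖realPt v‖ ≤ S := by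
      intro v S h
      refine (norm_realPt_le_sum v).trans ?_
      have h' : ((∑ j, (v j).natAbs : ℕ) : ℝ) ≤ S := by exact_mod_cast h
      simpa [Nat.cast_natAbs] using h'
    have hTw : (w i).natAbs + ∑ j ∈ Finset.univ.erase i, (w j).natAbs ≤ T + 1 := by
      rwa [Finset.add_sum_erase _ (fun j => (w j).natAbs) (Finset.mem_univ i)]
    have step : ∀ s : ℤ, (w i - s).natAbs + 1 = (w i).natAbs →
        ∑ j, ((w - Pi.single i s : Fin m → ℤ) j).natAbs ≤ T := by
      intro s hs
      rw [← Finset.add_sum_erase _ _ (Finset.mem_univ i)]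
      rw [Finset.sum_congr rfl (g := fun j => (w j).natAbs) fun j hj => by
        simp [Finset.ne_of_mem_erase hj]]
      simp only [Pi.sub_apply, Pi.single_eq_same]
      omega
    have lsum : ∀ s : ℤ, ∑ j, ((w - Pi.single i s : Fin m → ℤ) j : ℝ) * grad K F a j =
        (∑ j, (w j : ℝ) * grad K F a j) - s * grad K F a i := by
      intro s
      simp only [Pi.sub_apply, Int.cast_sub, sub_mul, Finset.sum_sub_distrib]
      congr 1
      rw [Finset.sum_eq_single i]
      · simp
      · intro j _ hj; simp [hj]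
      · simp
    have hnum : 2 * D * (T : ℝ) ^ 2 / K + 2 * D * ((T : ℝ) + 1) / K ≤
        2 * D * ((T + 1 : ℕ) : ℝ) ^ 2 / K := by
      rw [← add_div]
      gcongr
      push_cast
      nlinarith [mul_nonneg hD (Nat.cast_nonneg T : (0 : ℝ) ≤ T)]
    rcases lt_or_gt_of_ne hi with hneg | hpos
    · have hst := step (-1) (by omega)
      have h1 := ih _ hst
      rw [lsum] at h1
      have h2 := grad_lip hK hF a w i
      have h3 : 2 * D * ‖realPt w‖ / K ≤ 2 * D * ((T : ℝ) + 1) / K := by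
        gcongr; exact_mod_cast norm_le w (T + 1) hT
      have heq : a + w + Pi.single i 1 = a + (w - Pi.single i (-1)) := by
        rw [Pi.single_neg]; abel
      simp only [grad] at h2
      rw [heq] at h2
      simp only [Int.cast_neg, Int.cast_one, grad] at h1 ⊢
      rw [abs_le] at h1 h2 ⊢
      constructor <;> linarith [h1.1, h1.2, h2.1, h2.2]
    · have hst := step 1 (by omega)
      have h1 := ih _ hst
      rw [lsum] at h1
      have h2 := grad_lip hK hF a (w - Pi.single i 1) i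
      have h3 : 2 * D * ‖realPt (w - Pi.single i 1)‖ / K ≤ 2 * D * ((T : ℝ) + 1) / K := by
        gcongr; exact (norm_le _ T hst).trans (by linarith)
      have heq : a + (w - Pi.single i 1) + Pi.single i 1 = a + w := by abel
      simp only [grad] at h2
      rw [heq] at h2
      simp only [Int.cast_one, grad] at h1 ⊢
      rw [abs_le] at h1 h2 ⊢
      constructor <;> linarith [h1.1, h1.2, h2.1, h2.2]

lemma grad_norm_le (hm : 1 ≤ m) (hK : m ^ 4 ≤ K) (hD : 0 ≤ D)
    (hF : ∀ a b, |F a - F b| ≤ D * ‖realPt a - realPt b‖) (a : Fin m → ℤ) :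
    Real.sqrt (∑ i, grad K F a i ^ 2) ≤ 20 * D := by
  have hK0 : 0 < K := lt_of_lt_of_le (pow_pos hm 4) hK
  set g := grad K F a with hg
  set G := Real.sqrt (∑ i, g i ^ 2) with hG
  rcases eq_or_lt_of_le (Real.sqrt_nonneg (∑ i, g i ^ 2)) with h0 | hpos
  · rw [← hG] at h0; rw [← h0]; positivity
  rw [← hG] at hpos
  have hG2 : G ^ 2 = ∑ i, g i ^ 2 := Real.sq_sqrt (Finset.sum_nonneg fun i _ => sq_nonneg _)
  have hgi : ∀ i, |g i| ≤ G := fun i => Real.abs_le_sqrt
    (Finset.single_le_sum (f := fun i => g i ^ 2) (fun j _ => sq_nonneg _) (Finset.mem_univ i))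
  let x : Fin m → ℝ := fun i => (m : ℝ) * g i / G
  let w : Fin m → ℤ := fun i => round (x i)
  have hxw : ∀ i, |x i - w i| ≤ 1 / 2 := fun i => abs_sub_round (x i)
  have hm' : (1 : ℝ) ≤ m := by exact_mod_cast hm
  have hxi : ∀ i, |x i| ≤ m := by
    intro i
    simp only [x, abs_div, abs_mul, Nat.abs_cast, abs_of_pos hpos]
    rw [div_le_iff₀ hpos]
    exact mul_le_mul_of_nonneg_left (hgi i) (Nat.cast_nonneg m)
  have hwi : ∀ i, |(w i : ℝ)| ≤ m + 1 := fun i => by
    have := abs_le.1 (hxw i); have := abs_le.1 (hxi i)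
    rw [abs_le]; constructor <;> linarith
  set T := ∑ i, (w i).natAbs with hT
  have hTle : (T : ℝ) ≤ 2 * m ^ 2 := by
    rw [hT]; push_cast [Nat.cast_natAbs]
    calc ∑ i, |(w i : ℝ)| ≤ ∑ _i : Fin m, ((m : ℝ) + 1) := Finset.sum_le_sum fun i _ => hwi i
      _ ≤ 2 * (m : ℝ) ^ 2 := by simp; nlinarith
  have hnorm : ‖realPt w‖ ≤ 2 * m := by
    have hx : ‖(WithLp.toLp 2 x : EuclideanSpace ℝ (Fin m))‖ = m := by
      rw [EuclideanSpace.norm_eq]
      have : ∑ i, ‖(WithLp.toLp 2 x : EuclideanSpace ℝ (Fin m)) i‖ ^ 2 = (m : ℝ) ^ 2 := by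
        simp only [Real.norm_eq_abs, sq_abs, x, div_pow, mul_pow, ← Finset.sum_div,
          ← Finset.mul_sum, ← hG2]
        field_simp
      rw [this, Real.sqrt_sq (Nat.cast_nonneg m)]
    have hd : ‖realPt w - (WithLp.toLp 2 x : EuclideanSpace ℝ (Fin m))‖ ≤ m := by
      rw [EuclideanSpace.norm_eq]
      apply Real.sqrt_le_iff.2 ⟨Nat.cast_nonneg m, ?_⟩
      calc ∑ i, ‖(realPt w - WithLp.toLp 2 x : EuclideanSpace ℝ (Fin m)) i‖ ^ 2
          ≤ ∑ _i : Fin m, (1 : ℝ) := Finset.sum_le_sum fun i _ => by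
            have := abs_le.1 (hxw i)
            simp only [PiLp.sub_apply, realPt_apply, Real.norm_eq_abs, sq_abs]
            nlinarith
        _ ≤ (m : ℝ) ^ 2 := by simp; nlinarith
    have := norm_le_norm_sub_add (realPt w) (WithLp.toLp 2 x : EuclideanSpace ℝ (Fin m))
    linarith
  have hdot : (m : ℝ) * G / 2 ≤ ∑ i, (w i : ℝ) * g i := by
    have e1 : ∑ i, x i * g i = m * G := by
      have : ∀ i, x i * g i = (m : ℝ) / G * g i ^ 2 := fun i => by simp only [x]; ring
      simp only [this, ← Finset.mul_sum, ← hG2]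
      field_simp
    have e2 : ∑ i, x i * g i - ∑ i, (w i : ℝ) * g i ≤ ∑ _i : Fin m, G / 2 := by
      rw [← Finset.sum_sub_distrib]
      refine Finset.sum_le_sum fun i _ => ?_
      rw [← sub_mul]
      refine (le_abs_self _).trans ?_
      rw [abs_mul]
      exact (mul_le_mul (hxw i) (hgi i) (abs_nonneg _) (by norm_num)).trans_eq (by ring)
    simp at e2
    linarith
  have hlin := abs_le.1 (linearize hK0 hD hF a w T le_rfl)
  have hlip := abs_le.1 (smooth_lip (K := K) hK0 hF (a + w) a)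
  rw [realPt_add_sub] at hlip
  rw [← hg] at hlin
  have herr : 2 * D * (T : ℝ) ^ 2 / K ≤ 8 * D := by
    have hK' : (m : ℝ) ^ 4 ≤ K := by exact_mod_cast hK
    rw [div_le_iff₀ (by positivity)]
    calc 2 * D * (T : ℝ) ^ 2 ≤ 2 * D * (2 * (m : ℝ) ^ 2) ^ 2 := by gcongr
      _ = 8 * D * (m : ℝ) ^ 4 := by ring
      _ ≤ 8 * D * K := by gcongr
  have h5 : (m : ℝ) * G / 2 ≤ 2 * m * D + 8 * D := by
    have : D * ‖realPt w‖ ≤ D * (2 * m) := mul_le_mul_of_nonneg_left hnorm hD
    linarith [hlin.1, hlip.2]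
  by_contra hc
  push Not at hc
  nlinarith [mul_lt_mul_of_pos_left hc (by positivity : (0 : ℝ) < m),
    mul_le_mul_of_nonneg_right hm' hD]

/-- The sign vector of a Boolean vector. -/
def signVec (b : Fin m → Bool) : Fin m → ℤ := fun i => if b i then 1 else -1

lemma sum_exp_sign (v : Fin m → ℝ) :
    ∑ b : Fin m → Bool, Real.exp (∑ i, (signVec b i : ℝ) * v i) =
      ∏ i, (Real.exp (v i) + Real.exp (-v i)) := by
  rw [← Finset.prod_congr rfl (fun i _ =>
    show ∑ s : Bool, Real.exp (((if s then 1 else -1 : ℤ) : ℝ) * v i) =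
      Real.exp (v i) + Real.exp (-v i) by simp)]
  rw [Fintype.prod_sum]
  exact Finset.sum_congr rfl fun b _ => by rw [Real.exp_sum]; rfl

lemma sum_cosh_sign (v : Fin m → ℝ) :
    ∑ b : Fin m → Bool, Real.cosh (∑ i, (signVec b i : ℝ) * v i) ≤
      (2 : ℝ) ^ m * Real.exp ((∑ i, v i ^ 2) / 2) := by
  have h : ∑ b : Fin m → Bool, Real.cosh (∑ i, (signVec b i : ℝ) * v i) =
      ∏ i, (2 * Real.cosh (v i)) := by
    simp only [Real.cosh_eq]
    rw [← Finset.sum_div, Finset.sum_add_distrib]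
    have h1 := sum_exp_sign v
    have h2 := sum_exp_sign (-v)
    simp only [Pi.neg_apply, mul_neg, Finset.sum_neg_distrib, neg_neg] at h2
    rw [h1, h2]
    rw [Finset.prod_congr rfl (g := fun i => Real.exp (-v i) + Real.exp (v i))
      (fun i _ => add_comm _ _)]
    rw [← two_mul, mul_div_cancel_left₀ _ two_ne_zero]
    exact Finset.prod_congr rfl fun i _ => by ring
  rw [h, Finset.prod_mul_distrib, Finset.sum_div, Real.exp_sum]
  simp only [Finset.prod_const, Finset.card_univ, Fintype.card_fin]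
  gcongr with i
  exact Real.cosh_le_exp_half_sq _

lemma sum_sign_step (hm : 1 ≤ m) (hK : m ^ 4 ≤ K) (hD : 0 < D) {p : ℝ} (hp : 0 < p)
    (hF : ∀ a b, |F a - F b| ≤ D * ‖realPt a - realPt b‖) (a : Fin m → ℤ) :
    ∑ b : Fin m → Bool, |smooth K F (a + signVec b) - smooth K F a| ^ p ≤
      (2 : ℝ) ^ m * (18 * (20 * D * p) ^ p) := by
  have hK0 : 0 < K := lt_of_lt_of_le (pow_pos hm 4) hK
  have hG := grad_norm_le hm hK hD.le hF a
  set g := grad K F a with hg
  let v : Fin m → ℝ := fun i => g i / (20 * D)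
  have hv : (∑ i, v i ^ 2) ≤ 1 := by
    simp only [v, div_pow, ← Finset.sum_div]
    rw [div_le_one (by positivity)]
    calc ∑ i, g i ^ 2 = Real.sqrt (∑ i, g i ^ 2) ^ 2 :=
          (Real.sq_sqrt (Finset.sum_nonneg fun i _ => sq_nonneg _)).symm
      _ ≤ _ := pow_le_pow_left₀ (Real.sqrt_nonneg _) hG 2
  have point : ∀ b : Fin m → Bool, |smooth K F (a + signVec b) - smooth K F a| ^ p ≤
      (20 * D * p) ^ p * (6 * Real.cosh (∑ i, (signVec b i : ℝ) * v i)) := by
    intro b
    have hl := linearize hK0 hD.le hF a (signVec b) m (by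
      apply le_of_eq
      rw [Finset.sum_congr rfl (g := fun _ => 1) fun i _ => by
        unfold signVec; split <;> rfl]
      simp)
    rw [← hg] at hl
    set X := smooth K F (a + signVec b) - smooth K F a
    set S := ∑ i, (signVec b i : ℝ) * v i with hS
    have hSe : ∑ i, (signVec b i : ℝ) * g i = 20 * D * S := by
      rw [hS, Finset.mul_sum]
      refine Finset.sum_congr rfl fun i _ => ?_
      simp only [v]; field_simp
    have hKm : 2 * D * (m : ℝ) ^ 2 / K ≤ 2 * D := by
      have hK' : (m : ℝ) ^ 4 ≤ K := by exact_mod_cast hK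
      have hm' : (1 : ℝ) ≤ m := by exact_mod_cast hm
      rw [div_le_iff₀ (by positivity)]
      gcongr
      calc (m : ℝ) ^ 2 ≤ (m : ℝ) ^ 4 := pow_le_pow_right₀ hm' (by norm_num)
        _ ≤ K := hK'
    set Y := |X| / (20 * D) with hY
    have hYS : Y ≤ |S| + 1 / 10 := by
      rw [hY, div_le_iff₀ (by positivity)]
      rw [hSe] at hl
      have := abs_sub_abs_le_abs_sub X (20 * D * S)
      rw [abs_mul (20 * D), abs_of_pos (by positivity : (0 : ℝ) < 20 * D)] at this
      linarith
    have hYp : Y ^ p ≤ p ^ p * Real.exp Y := by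
      have : Y ≤ p * Real.exp (Y / p) := by
        have := Real.add_one_le_exp (Y / p)
        have h2 : p * (Y / p) = Y := by field_simp
        nlinarith
      calc Y ^ p ≤ (p * Real.exp (Y / p)) ^ p :=
            Real.rpow_le_rpow (by positivity) this hp.le
        _ = p ^ p * Real.exp Y := by
            rw [Real.mul_rpow hp.le (Real.exp_pos _).le, ← Real.exp_mul, div_mul_cancel₀ _ hp.ne']
    have hexp : Real.exp Y ≤ 6 * Real.cosh S := by
      calc Real.exp Y ≤ Real.exp (|S| + 1 / 10) := Real.exp_le_exp.2 hYS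
        _ = Real.exp (1 / 10) * Real.exp |S| := by rw [Real.exp_add, mul_comm]
        _ ≤ 3 * (2 * Real.cosh S) := by
          gcongr
          · exact (Real.exp_le_exp.2 (by norm_num)).trans Real.exp_one_lt_three.le
          · rw [Real.cosh_eq]
            rcases le_total 0 S with h | h
            · rw [abs_of_nonneg h]; linarith [Real.exp_pos (-S)]
            · rw [abs_of_nonpos h]; linarith [Real.exp_pos S]
        _ = 6 * Real.cosh S := by ring
    calc |X| ^ p = (20 * D * Y) ^ p := by rw [hY]; congr 1; field_simp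
      _ = (20 * D) ^ p * Y ^ p := Real.mul_rpow (by positivity) (by positivity)
      _ ≤ (20 * D) ^ p * (p ^ p * (6 * Real.cosh S)) := by
          gcongr
          exact hYp.trans (by gcongr)
      _ = _ := by rw [Real.mul_rpow (x := 20 * D) (by positivity) hp.le]; ring
  calc _ ≤ ∑ b : Fin m → Bool, (20 * D * p) ^ p *
        (6 * Real.cosh (∑ i, (signVec b i : ℝ) * v i)) := Finset.sum_le_sum fun b _ => point b
    _ = (20 * D * p) ^ p * (6 * ∑ b : Fin m → Bool,
        Real.cosh (∑ i, (signVec b i : ℝ) * v i)) := by simp only [Finset.mul_sum]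
    _ ≤ (20 * D * p) ^ p * (6 * ((2 : ℝ) ^ m * 3)) := by
      gcongr
      refine (sum_cosh_sign v).trans ?_
      gcongr
      exact (Real.exp_le_exp.2 (by linarith)).trans Real.exp_one_lt_three.le
    _ = _ := by ring

end Vale.Agent.P249
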