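import Mathlib

/-!
Greedy spanners: a finite metric on `n` points has at most `2 n` edges linking each pair by a path
of logarithmically many hops, none longer than the pair itself.
-/

namespace Vale.Agent.P249

open Finset

variable {V : Type*} [Fintype V] [DecidableEq V]

/-- `Reach G k u v`: a walk with at most `k` edges of `G` joins `u` to `v`. -/
def Reach (G : Finset (Sym2 V)) : ℕ → V → V → Prop
  | 0, u, v => u = v
  | k + 1, u, v => u = v ∨ ∃ w, s(u, w) ∈ G ∧ Reach G k w v

omit [Fintype V] [DecidableEq V] in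
lemma Reach.refl {G : Finset (Sym2 V)} : ∀ (k : ℕ) (u : V), Reach G k u u
  | 0, _ => rfl
  | _ + 1, _ => Or.inl rfl

omit [Fintype V] [DecidableEq V] in
lemma Reach.mono {G H : Finset (Sym2 V)} (h : G ⊆ H) :
    ∀ {k l : ℕ} {u v : V}, k ≤ l → Reach G k u v → Reach H l u v := by
  intro k
  induction k with
  | zero => intro l u v _ huv; rw [show u = v from huv]; exact Reach.refl _ _
  | succ k ih =>
    intro l u v hkl huv
    obtain ⟨l, rfl⟩ : ∃ l', l = l' + 1 := ⟨l - 1, by omega⟩
    rcases huv with rfl | ⟨w, hw, hr⟩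
    · exact Reach.refl _ _
    · exact Or.inr ⟨w, h hw, ih (by omega) hr⟩

omit [Fintype V] [DecidableEq V] in
lemma Reach.trans {G : Finset (Sym2 V)} : ∀ {i j : ℕ} {u v w : V},
    Reach G i u v → Reach G j v w → Reach G (i + j) u w := by
  intro i
  induction i with
  | zero => intro j u v w h1 h2; rw [show u = v from h1, Nat.zero_add]; exact h2
  | succ i ih =>
    intro j u v w h1 h2
    rcases h1 with rfl | ⟨z, hz, hr⟩
    · exact Reach.mono (Finset.Subset.refl G) (by omega) h2
    · rw [Nat.succ_add]; exact Or.inr ⟨z, hz, ih hr h2⟩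

omit [Fintype V] [DecidableEq V] in
lemma Reach.edge {G : Finset (Sym2 V)} {u v : V} (h : s(u, v) ∈ G) : Reach G 1 u v :=
  Or.inr ⟨v, h, rfl⟩

omit [Fintype V] [DecidableEq V] in
lemma Reach.symm {G : Finset (Sym2 V)} : ∀ {k : ℕ} {u v : V},
    Reach G k u v → Reach G k v u := by
  intro k
  induction k with
  | zero => intro u v h; exact Eq.symm h
  | succ k ih =>
    intro u v h
    rcases h with rfl | ⟨w, hw, hr⟩
    · exact Reach.refl _ _
    · exact Reach.trans (ih hr) (Reach.edge (by rwa [Sym2.eq_swap]))

omit [Fintype V] in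
/-- A walk using a new edge splits at its first and last endpoint on that edge. -/
lemma Reach.split {G : Finset (Sym2 V)} {a b : V} : ∀ {k : ℕ} {u v : V},
    Reach (insert s(a, b) G) k u v → Reach G k u v ∨
      ∃ i j, i + j + 1 ≤ k ∧
        ((Reach G i u a ∧ Reach G j b v) ∨ (Reach G i u b ∧ Reach G j a v)) := by
  intro k
  induction k with
  | zero => intro u v h; exact Or.inl h
  | succ k ih =>
    intro u v h
    rcases h with rfl | ⟨w, hw, hr⟩
    · exact Or.inl (Or.inl rfl)
    rcases Finset.mem_insert.1 hw with he | he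
    · rcases ih hr with h1 | ⟨i, j, hij, h1 | h1⟩
      · rcases Sym2.eq_iff.1 he with ⟨rfl, rfl⟩ | ⟨rfl, rfl⟩
        · exact Or.inr ⟨0, k, by omega, Or.inl ⟨rfl, h1⟩⟩
        · exact Or.inr ⟨0, k, by omega, Or.inr ⟨rfl, h1⟩⟩
      · rcases Sym2.eq_iff.1 he with ⟨rfl, rfl⟩ | ⟨rfl, rfl⟩
        · exact Or.inr ⟨0, j, by omega, Or.inl ⟨rfl, h1.2⟩⟩
        · exact Or.inl (Reach.mono (Finset.Subset.refl G) (by omega) h1.2)
      · rcases Sym2.eq_iff.1 he with ⟨rfl, rfl⟩ | ⟨rfl, rfl⟩
        · exact Or.inl (Reach.mono (Finset.Subset.refl G) (by omega) h1.2)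
        · exact Or.inr ⟨0, j, by omega, Or.inr ⟨rfl, h1.2⟩⟩
    · rcases ih hr with h1 | ⟨i, j, hij, h1⟩
      · exact Or.inl (Or.inr ⟨w, he, h1⟩)
      · refine Or.inr ⟨i + 1, j, by omega, ?_⟩
        rcases h1 with h1 | h1
        · exact Or.inl ⟨Or.inr ⟨w, he, h1.1⟩, h1.2⟩
        · exact Or.inr ⟨Or.inr ⟨w, he, h1.1⟩, h1.2⟩

/-- No edge of `G` is bypassed by `T` or fewer other edges. -/
def Sparse (T : ℕ) (G : Finset (Sym2 V)) : Prop :=
  ∀ u v, s(u, v) ∈ G → ¬ Reach (G.erase s(u, v)) T u v

omit [Fintype V] in
lemma Sparse.subset {T : ℕ} {G H : Finset (Sym2 V)} (h : Sparse T G) (hH : H ⊆ G) :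
    Sparse T H := fun u v he hr =>
  h u v (hH he) (Reach.mono (Finset.erase_subset_erase _ hH) le_rfl hr)

omit [Fintype V] in
lemma Sparse.insert {T : ℕ} (hT : 1 ≤ T) {G : Finset (Sym2 V)} {a b : V} (h : Sparse T G)
    (hab : ¬ Reach G T a b) : Sparse T (Insert.insert s(a, b) G) := by
  have hnot : s(a, b) ∉ G := fun hh =>
    hab (Reach.mono (Finset.Subset.refl G) hT (Reach.edge hh))
  intro u v he hr
  by_cases hnew : s(u, v) = s(a, b)
  · rw [hnew, Finset.erase_insert hnot] at hr
    rcases Sym2.eq_iff.1 hnew with ⟨rfl, rfl⟩ | ⟨rfl, rfl⟩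
    · exact hab hr
    · exact hab hr.symm
  · have hmem : s(u, v) ∈ G := (Finset.mem_insert.1 he).resolve_left hnew
    rw [Finset.erase_insert_of_ne (Ne.symm hnew)] at hr
    rcases hr.split with h1 | ⟨i, j, hij, h1 | h1⟩
    · exact h u v hmem h1
    · refine hab (Reach.mono (Finset.Subset.refl G) (k := i + 1 + j) (by omega) ?_)
      exact ((Reach.mono (Finset.erase_subset _ _) le_rfl h1.1.symm).trans
        (Reach.edge hmem)).trans (Reach.mono (Finset.erase_subset _ _) le_rfl h1.2.symm)
    · refine hab (Reach.mono (Finset.Subset.refl G) (k := j + 1 + i) (by omega) ?_)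
      exact ((Reach.mono (Finset.erase_subset _ _) le_rfl h1.2).trans
        (Reach.edge (by rwa [Sym2.eq_swap]))).trans
        (Reach.mono (Finset.erase_subset _ _) le_rfl h1.1)

omit [Fintype V] in
/-- Within distance `i` of `r`, a vertex of larger distance has at most one neighbour. -/
lemma Reach.avoid {G : Finset (Sym2 V)} {v z : V} : ∀ {i : ℕ} {r u : V}, u ≠ v →
    Reach G i r u → Reach (G.erase s(v, z)) i r u ∨ ∃ j < i, Reach G j r v := by
  intro i
  induction i with
  | zero => intro r u _ h; exact Or.inl h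
  | succ i ih =>
    intro r u huv h
    rcases h with rfl | ⟨w, hw, hr⟩
    · exact Or.inl (Or.inl rfl)
    by_cases hrv : r = v
    · subst hrv; exact Or.inr ⟨0, by omega, rfl⟩
    rcases ih huv hr with h1 | ⟨j, hj, h1⟩
    · by_cases hwv : w = v
      · subst hwv
        cases i with
        | zero => exact absurd (show w = u from hr).symm huv
        | succ i => exact Or.inr ⟨1, by omega, Reach.edge hw⟩
      · refine Or.inl (Or.inr ⟨w, Finset.mem_erase.2 ⟨?_, hw⟩, h1⟩)
        intro he
        rcases Sym2.eq_iff.1 he with ⟨h2, -⟩ | ⟨-, h2⟩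
        · exact hrv h2
        · exact hwv h2
    · exact Or.inr ⟨j + 1, by omega, Or.inr ⟨w, hw, h1⟩⟩

/-- A sparse graph with all degrees at least three is exponentially large. -/
lemma pow_le_of_sparse {k : ℕ} {G : Finset (Sym2 V)} (hG : Sparse (2 * k + 1) G) (r : V)
    (hdeg : ∀ (i : ℕ) (v : V), Reach G i r v →
      3 ≤ (Finset.univ.filter fun w => s(v, w) ∈ G).card) :
    2 ^ k ≤ Fintype.card V := by
  classical
  let lay : ℕ → Finset V := fun i =>
    Finset.univ.filter fun v => Reach G i r v ∧ ∀ j < i, ¬ Reach G j r v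
  have hnb : ∀ i ≤ k, ∀ v : V, (∀ j < i, ¬ Reach G j r v) →
      ((Finset.univ.filter fun w => s(v, w) ∈ G).filter fun w => Reach G i r w).card ≤ 1 := by
    intro i hi v hv
    rw [Finset.card_le_one]
    intro x hx y hy
    simp only [Finset.mem_filter, Finset.mem_univ, true_and] at hx hy
    by_contra hxy
    have hxv : x ≠ v := by
      rintro rfl
      exact hG x x hx.1 (Reach.refl _ _)
    have hyv : y ≠ v := by
      rintro rfl
      exact hG y y hy.1 (Reach.refl _ _)
    have h1 := (Reach.avoid (z := x) hxv hx.2).resolve_right (fun ⟨j, hj, hh⟩ => hv j hj hh)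
    have h2 := (Reach.avoid (z := x) hyv hy.2).resolve_right (fun ⟨j, hj, hh⟩ => hv j hj hh)
    have he : s(v, y) ∈ G.erase s(v, x) := by
      refine Finset.mem_erase.2 ⟨fun he => ?_, hy.1⟩
      rcases Sym2.eq_iff.1 he with ⟨-, h3⟩ | ⟨h3, -⟩
      · exact hxy h3.symm
      · exact hxv h3.symm
    exact hG v x hx.1 (Reach.mono (Finset.Subset.refl _) (by omega)
      (((Reach.edge he).trans h2.symm).trans h1))
  have hgrow : ∀ i < k, 2 * (lay i).card ≤ (lay (i + 1)).card := by
    intro i hi
    have key : ∑ v ∈ lay i, ((lay (i + 1)).filter fun w => s(v, w) ∈ G).card =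
        ∑ w ∈ lay (i + 1), ((lay i).filter fun v => s(v, w) ∈ G).card := by
      simp only [Finset.card_filter]; exact Finset.sum_comm
    have hlow : ∀ v ∈ lay i, 2 ≤ ((lay (i + 1)).filter fun w => s(v, w) ∈ G).card := by
      intro v hv
      simp only [lay, Finset.mem_filter, Finset.mem_univ, true_and] at hv
      set N := Finset.univ.filter fun w => s(v, w) ∈ G
      have h1 := hnb i hi.le v hv.2
      have h3 := hdeg i v hv.1
      change (N.filter fun w => Reach G i r w).card ≤ 1 at h1
      change 3 ≤ N.card at h3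
      have hsplit : (N.filter fun w => Reach G i r w).card +
          (N.filter fun w => ¬ Reach G i r w).card = N.card :=
        Finset.card_filter_add_card_filter_not _
      have hsub : (N.filter fun w => ¬ Reach G i r w) ⊆
          (lay (i + 1)).filter fun w => s(v, w) ∈ G := by
        intro w hw
        simp only [N, Finset.mem_filter, Finset.mem_univ, true_and] at hw
        simp only [lay, Finset.mem_filter, Finset.mem_univ, true_and]
        exact ⟨⟨hv.1.trans (Reach.edge hw.1), fun j hj hh =>
          hw.2 (Reach.mono (Finset.Subset.refl G) (by omega) hh)⟩, hw.1⟩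
      have := Finset.card_le_card hsub
      omega
    have hhigh : ∀ w ∈ lay (i + 1), ((lay i).filter fun v => s(v, w) ∈ G).card ≤ 1 := by
      intro w hw
      simp only [lay, Finset.mem_filter, Finset.mem_univ, true_and] at hw
      refine le_trans (Finset.card_le_card ?_) (hnb i hi.le w fun j hj => hw.2 j (by omega))
      intro v hv
      simp only [lay, Finset.mem_filter, Finset.mem_univ, true_and] at hv ⊢
      exact ⟨by rw [Sym2.eq_swap]; exact hv.2, hv.1.1⟩
    calc 2 * (lay i).card = ∑ _v ∈ lay i, 2 := by rw [Finset.sum_const, smul_eq_mul, mul_comm]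
      _ ≤ _ := Finset.sum_le_sum hlow
      _ = _ := key
      _ ≤ ∑ _w ∈ lay (i + 1), 1 := Finset.sum_le_sum hhigh
      _ = (lay (i + 1)).card := (Finset.card_eq_sum_ones _).symm
  have hpow : ∀ i ≤ k, 2 ^ i ≤ (lay i).card := by
    intro i
    induction i with
    | zero =>
      intro _
      exact Finset.card_pos.2 ⟨r, by simp [lay, Reach.refl]⟩
    | succ i ih =>
      intro hi
      have := ih (by omega)
      have := hgrow i (by omega)
      rw [pow_succ]
      omega
  exact (hpow k le_rfl).trans (Finset.card_le_univ _)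

/-- A graph without short cycles has at most `2 |S|` edges. -/
lemma card_le_of_sparse {k : ℕ} (hk : Fintype.card V < 2 ^ k) : ∀ (S : Finset V)
    (G : Finset (Sym2 V)), Sparse (2 * k + 1) G → (∀ e ∈ G, ∀ v ∈ e, v ∈ S) →
      G.card ≤ 2 * S.card := by
  classical
  intro S
  induction S using Finset.strongInduction with
  | H S ih =>
    intro G hG hS
    by_cases hsmall : ∃ v ∈ S, (Finset.univ.filter fun w => s(v, w) ∈ G).card ≤ 2
    · obtain ⟨v, hv, hdeg⟩ := hsmall
      have h1 := ih (S.erase v) (Finset.erase_ssubset hv) (G.filter fun e => v ∉ e)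
        (hG.subset (Finset.filter_subset _ _)) (fun e he w hw => by
          rw [Finset.mem_filter] at he
          exact Finset.mem_erase.2 ⟨fun h => he.2 (h ▸ hw), hS e he.1 w hw⟩)
      have h2 : (G.filter fun e => v ∈ e).card ≤ 2 := by
        refine le_trans (Finset.card_le_card (t := (Finset.univ.filter fun w => s(v, w) ∈ G).image
          fun w => s(v, w)) ?_) (Finset.card_image_le.trans hdeg)
        intro e he
        rw [Finset.mem_filter] at he
        obtain ⟨w, rfl⟩ := Sym2.mem_iff_exists.1 he.2
        exact Finset.mem_image.2 ⟨w, by simp [he.1], rfl⟩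
      have hsum := Finset.card_filter_add_card_filter_not (s := G) (fun e => v ∈ e)
      have hc := Finset.card_erase_add_one hv
      omega
    · push Not at hsmall
      rcases S.eq_empty_or_nonempty with rfl | ⟨r, hr⟩
      · suffices G = ∅ by simp [this]
        refine Finset.eq_empty_of_forall_notMem fun e he => ?_
        induction e using Sym2.ind with
        | _ a b => exact absurd (hS _ he a (by simp)) (by simp)
      have hreach : ∀ (i : ℕ) (x y : V), x ∈ S → Reach G i x y → y ∈ S := by
        intro i
        induction i with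
        | zero => intro x y hx h; exact (show x = y from h) ▸ hx
        | succ i ih' =>
          intro x y hx h
          rcases h with rfl | ⟨w, hw, hw'⟩
          · exact hx
          · exact ih' w y (hS _ hw w (by simp)) hw'
      have := pow_le_of_sparse hG r (fun i v hv => hsmall v (hreach i r v hr hv))
      omega

/-- The greedy spanner: at most `2 n` edges, and every pair is joined by a path of at most `T`
hops through edges no longer than itself. -/
theorem exists_spanner (dist : V → V → ℝ) (hsymm : ∀ u v, dist u v = dist v u) {k : ℕ}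
    (hk : Fintype.card V < 2 ^ k) :
    ∃ G : Finset (Sym2 V), G.card ≤ 2 * Fintype.card V ∧
      ∀ x y : V, x ≠ y → ∀ (φ : V → ℝ) (M : ℝ), 0 ≤ M →
        (∀ u v, s(u, v) ∈ G → |φ u - φ v| ≤ M * dist u v) →
        |φ x - φ y| ≤ ((2 * k + 1 : ℕ) : ℝ) * M * dist x y := by
  classical
  let len : Sym2 V → ℝ := Sym2.lift ⟨dist, hsymm⟩
  have main : ∀ S : Finset (Sym2 V), ∃ G ⊆ S, Sparse (2 * k + 1) G ∧
      ∀ x y : V, s(x, y) ∈ S →
        Reach (G.filter fun e => len e ≤ dist x y) (2 * k + 1) x y := by
    intro S
    induction S using Finset.induction_on_max_value len with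
    | empty => exact ⟨∅, subset_refl _, fun u v h => by simp at h, fun x y h => by simp at h⟩
    | insert e S hnot hmax ih =>
      obtain ⟨G, hGS, hsp, hcov⟩ := ih
      induction e using Sym2.ind with
      | _ a b =>
        have hlen : ∀ x y, s(x, y) = s(a, b) → dist x y = dist a b := fun x y h =>
          congrArg len h
        have hall : G.filter (fun e => len e ≤ dist a b) = G :=
          Finset.filter_true_of_mem fun e he => hmax e (hGS he)
        by_cases hab : Reach G (2 * k + 1) a b
        · refine ⟨G, hGS.trans (Finset.subset_insert _ _), hsp, fun x y hxy => ?_⟩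
          rcases Finset.mem_insert.1 hxy with h | h
          · rw [hlen x y h, hall]
            rcases Sym2.eq_iff.1 h with ⟨rfl, rfl⟩ | ⟨rfl, rfl⟩
            · exact hab
            · exact hab.symm
          · exact hcov x y h
        · refine ⟨Insert.insert s(a, b) G, Finset.insert_subset_insert _ hGS,
            hsp.insert (by omega) hab, fun x y hxy => ?_⟩
          rcases Finset.mem_insert.1 hxy with h | h
          · refine Reach.mono (Finset.Subset.refl _) (k := 1) (by omega) (Reach.edge ?_)
            rw [Finset.mem_filter]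
            exact ⟨by simp [h], le_refl (dist x y)⟩
          · exact Reach.mono (Finset.filter_subset_filter _ (Finset.subset_insert _ _)) le_rfl
              (hcov x y h)
  obtain ⟨G, -, hsp, hcov⟩ := main Finset.univ
  refine ⟨G, ?_, fun x y _ φ M hM h => ?_⟩
  · simpa using card_le_of_sparse hk Finset.univ G hsp (fun e _ v _ => Finset.mem_univ v)
  have walk : ∀ (i : ℕ) (u v : V) (R : ℝ), Reach (G.filter fun e => len e ≤ R) i u v →
      0 ≤ M * R → |φ u - φ v| ≤ (i : ℝ) * (M * R) := by
    intro i
    induction i with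
    | zero => intro u v R hr _; rw [show u = v from hr]; simp
    | succ i ih =>
      intro u v R hr hR
      rcases hr with rfl | ⟨w, hw, hr'⟩
      · simp only [sub_self, abs_zero]; positivity
      rw [Finset.mem_filter] at hw
      have h1 : |φ u - φ w| ≤ M * R :=
        (h u w hw.1).trans (mul_le_mul_of_nonneg_left hw.2 hM)
      have h2 := ih w v R hr' hR
      have h3 := abs_sub_le (φ u) (φ w) (φ v)
      push_cast
      linarith
  have hr := hcov x y (Finset.mem_univ _)
  have hnn : 0 ≤ M * dist x y := by
    rcases hr with rfl | ⟨w, hw, -⟩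
    · contradiction
    · rw [Finset.mem_filter] at hw
      exact (abs_nonneg _).trans ((h x w hw.1).trans (mul_le_mul_of_nonneg_left hw.2 hM))
  rw [mul_assoc]
  exact walk _ x y _ hr hnn

end Vale.Agent.P249
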